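import Vale.Agent.P120.Density.Flat
import Mathlib.Analysis.Calculus.LineDeriv.IntegrationByParts
import Mathlib.Analysis.InnerProductSpace.Calculus
import Mathlib.MeasureTheory.Integral.IntegralEqImproper

/-!
# P120: the divergence of the smoothed kernel
-/

open MeasureTheory Metric Set Filter
open scoped RealInnerProductSpace Topology

namespace Vale.Agent.P120.Density

variable {n : ℕ}

/-- The derivative along `e` of the component along `e` of the kernel. -/
noncomputable def dker (δ : ℝ) (e u : Sp n) : ℝ :=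
  ⟪e, e⟫ / rad δ u ^ (n + 1) - (n + 1) * ⟪e, u⟫ ^ 2 / rad δ u ^ (n + 3)

/-- The divergence of the kernel. -/
noncomputable def div' (δ : ℝ) (u : Sp n) : ℝ := (n * δ ^ 2 - ‖u‖ ^ 2) / rad δ u ^ (n + 3)

lemma differentiable_ker {δ : ℝ} (hδ : 0 < δ) (e : Sp n) : Differentiable ℝ (ker δ e) := by
  intro u
  have h1 : DifferentiableAt ℝ (fun v : Sp n => rad δ v) u := by
    unfold rad
    exact DifferentiableAt.sqrt ((differentiableAt_const _).add (differentiableAt_id.norm_sq ℝ))
      (by positivity)
  unfold ker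
  simp only [div_eq_mul_inv]
  exact (DifferentiableAt.inner ℝ (differentiableAt_const e) differentiableAt_id).fun_mul
    ((h1.fun_pow (n + 1)).fun_inv (pow_pos (rad_pos hδ u) _).ne')

lemma fderiv_ker {δ : ℝ} (hδ : 0 < δ) (e u : Sp n) : fderiv ℝ (ker δ e) u e = dker δ e u := by
  have hline := (differentiable_ker hδ e u).hasFDerivAt.hasLineDerivAt e
  refine HasDerivAt.unique hline ?_
  set a := ⟪e, u⟫ with ha
  set b := ⟪e, e⟫ with hb
  have hr : ∀ t : ℝ, rad δ (u + t • e) = √(δ ^ 2 + (‖u‖ ^ 2 + 2 * t * a + t ^ 2 * b)) := by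
    intro t
    rw [rad, norm_add_sq_real, inner_smul_right, real_inner_comm, norm_smul, mul_pow,
      Real.norm_eq_abs, sq_abs, ← real_inner_self_eq_norm_sq e, ← ha, ← hb, mul_assoc]
  have hf : (fun t : ℝ => ker δ e (u + t • e)) =
      fun t => (a + t * b) / √(δ ^ 2 + (‖u‖ ^ 2 + 2 * t * a + t ^ 2 * b)) ^ (n + 1) := by
    funext t
    rw [ker, hr, inner_add_right, real_inner_smul_right]
  rw [hf]
  have hin : HasDerivAt (fun t : ℝ => δ ^ 2 + (‖u‖ ^ 2 + 2 * t * a + t ^ 2 * b)) (2 * a) 0 := by
    have h := ((((hasDerivAt_id (0 : ℝ)).const_mul 2).mul_const a).const_add (‖u‖ ^ 2)).add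
      (((hasDerivAt_id (0 : ℝ)).pow 2).mul_const b)
    simpa using h.const_add (δ ^ 2)
  have hpos : 0 < δ ^ 2 + (‖u‖ ^ 2 + 2 * 0 * a + 0 ^ 2 * b) := by
    simp only [mul_zero, zero_mul, add_zero, zero_pow, ne_eq, OfNat.ofNat_ne_zero, not_false_eq_true]
    positivity
  have hsq := (hin.sqrt hpos.ne').pow (n + 1)
  have hnum : HasDerivAt (fun t : ℝ => a + t * b) b 0 := by
    simpa using ((hasDerivAt_id (0 : ℝ)).mul_const b).const_add a
  have h := hnum.div hsq (pow_pos (Real.sqrt_pos.2 hpos) _).ne'
  have hR := rad_pos hδ u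
  have hr0 : √(δ ^ 2 + (‖u‖ ^ 2 + 2 * 0 * a + 0 ^ 2 * b)) = rad δ u := by
    rw [rad]
    congr 1
    ring
  simp only [Pi.pow_apply, hr0] at h
  refine HasDerivAt.congr_deriv h ?_
  rw [dker, ← ha, ← hb]
  simp only [zero_mul, add_zero, Nat.add_sub_cancel, Nat.cast_add, Nat.cast_one, pow_add]
  field_simp

lemma abs_dker_le {δ : ℝ} (hδ : 0 < δ) {e : Sp n} (he : ‖e‖ = 1) (u : Sp n) :
    |dker δ e u| ≤ (n + 2) * (rad δ u ^ (n + 1))⁻¹ := by
  have hR := rad_pos hδ u
  rw [dker, real_inner_self_eq_norm_sq, he, one_pow]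
  refine (abs_sub _ _).trans ?_
  rw [abs_of_nonneg (by positivity), abs_of_nonneg (by positivity)]
  have h : ((n : ℝ) + 1) * ⟪e, u⟫ ^ 2 / rad δ u ^ (n + 3) ≤ (n + 1) * (rad δ u ^ (n + 1))⁻¹ := by
    rw [← sq_abs, div_le_iff₀ (pow_pos hR _), mul_assoc]
    refine mul_le_mul_of_nonneg_left ((pow_le_pow_left₀ (abs_nonneg _) (abs_inner_le he δ u) 2).trans
      (le_of_eq ?_)) (by positivity)
    simp only [pow_add]
    field_simp
  rw [one_div]
  linarith

lemma integrable_rad (hn : 1 ≤ n) {δ : ℝ} (hδ : 0 < δ) :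
    Integrable fun u : Sp n => (rad δ u ^ (n + 1))⁻¹ := by
  have hc : Continuous fun u : Sp n => (rad δ u ^ (n + 1))⁻¹ :=
    ((continuous_rad δ).pow _).inv₀ fun u => (pow_pos (rad_pos hδ u) _).ne'
  have h1 : IntegrableOn (fun u : Sp n => (rad δ u ^ (n + 1))⁻¹) (ball 0 1) :=
    Measure.integrableOn_of_bounded measure_ball_lt_top.ne hc.aestronglyMeasurable
      (M := (δ ^ (n + 1))⁻¹) (Eventually.of_forall fun u => by
        rw [Real.norm_eq_abs, abs_of_nonneg (inv_nonneg.2 (pow_nonneg (rad_nonneg δ u) _))]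
        gcongr
        exact le_rad hδ.le u)
  have h2 : IntegrableOn (fun u : Sp n => (rad δ u ^ (n + 1))⁻¹) (ball 0 1)ᶜ := by
    refine (int_out hn (0 : Sp n) one_pos).1.mono' hc.aestronglyMeasurable ?_
    filter_upwards [ae_restrict_mem measurableSet_ball.compl] with u hu
    have : 1 ≤ ‖u‖ := by simpa using hu
    rw [Real.norm_eq_abs, abs_of_nonneg (inv_nonneg.2 (pow_nonneg (rad_nonneg δ u) _)), zero_sub,
      norm_neg]
    gcongr
    exact norm_le_rad δ u
  have h := h1.union h2
  rwa [union_compl_self, integrableOn_univ] at h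

lemma continuous_dker {δ : ℝ} (hδ : 0 < δ) (e : Sp n) : Continuous (dker δ e) := by
  unfold dker
  have h := continuous_rad (n := n) δ
  refine Continuous.sub (Continuous.div (by fun_prop) (by fun_prop) fun u => ?_)
    (Continuous.div (by fun_prop) (by fun_prop) fun u => ?_)
  · exact (pow_pos (rad_pos hδ u) _).ne'
  · exact (pow_pos (rad_pos hδ u) _).ne'

lemma integrable_dker (hn : 1 ≤ n) {δ : ℝ} (hδ : 0 < δ) {e : Sp n} (he : ‖e‖ = 1) :
    Integrable (dker δ e) :=
  ((integrable_rad hn hδ).const_mul _).mono' (continuous_dker hδ e).aestronglyMeasurable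
    (Eventually.of_forall fun u => abs_dker_le hδ he u)

lemma abs_div'_le {δ : ℝ} (hδ : 0 < δ) (u : Sp n) :
    |div' δ u| ≤ (n + 1) * (rad δ u ^ (n + 1))⁻¹ := by
  have hR := rad_pos hδ u
  rw [div', abs_div, abs_of_pos (pow_pos hR _), div_le_iff₀ (pow_pos hR _)]
  calc |(n : ℝ) * δ ^ 2 - ‖u‖ ^ 2| ≤ (n + 1) * rad δ u ^ 2 := by
        rw [rad_sq]
        refine (abs_sub _ _).trans ?_
        rw [abs_of_nonneg (by positivity), abs_of_nonneg (by positivity)]
        nlinarith [sq_nonneg δ, sq_nonneg ‖u‖, (Nat.cast_nonneg n : (0 : ℝ) ≤ n)]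
    _ = (n + 1) * (rad δ u ^ (n + 1))⁻¹ * rad δ u ^ (n + 3) := by
        simp only [pow_add]
        field_simp

lemma integrable_div' (hn : 1 ≤ n) {δ : ℝ} (hδ : 0 < δ) : Integrable (div' (n := n) δ) := by
  refine ((integrable_rad hn hδ).const_mul _).mono' ?_
    (Eventually.of_forall fun u => abs_div'_le hδ u)
  exact (Continuous.div (by fun_prop) ((continuous_rad δ).pow _)
    fun u => (pow_pos (rad_pos hδ u) _).ne').aestronglyMeasurable

lemma sum_dker {δ : ℝ} (hδ : 0 < δ) (u : Sp n) :
    ∑ j, dker δ (EuclideanSpace.single j (1 : ℝ)) u = div' δ u := by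
  have h1 : ∀ j : Fin n, ⟪EuclideanSpace.single j (1 : ℝ), u⟫ = u j := fun j => by
    simp [EuclideanSpace.inner_single_left]
  have h2 : ∑ j, u j ^ 2 = ‖u‖ ^ 2 := by
    rw [EuclideanSpace.norm_sq_eq]
    simp [Real.norm_eq_abs, sq_abs]
  have hR := rad_pos hδ u
  simp only [dker, h1, real_inner_self_eq_norm_sq, PiLp.norm_single, norm_one, one_pow,
    Finset.sum_sub_distrib, Finset.sum_const, Finset.card_univ, Fintype.card_fin, nsmul_eq_mul,
    ← Finset.sum_div, ← Finset.mul_sum, h2]
  rw [div', show (n : ℝ) * δ ^ 2 - ‖u‖ ^ 2 = n * rad δ u ^ 2 - (n + 1) * ‖u‖ ^ 2 by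
    rw [rad_sq]; ring]
  simp only [pow_add]
  field_simp

lemma integral_div' (hn : 1 ≤ n) {δ : ℝ} (hδ : 0 < δ) : ∫ u : Sp n, div' δ u = 0 := by
  set g : ℝ → ℝ := fun r => (n * δ ^ 2 - r ^ 2) / √(δ ^ 2 + r ^ 2) ^ (n + 3) with hg
  have hdiv : div' (n := n) δ = fun u => g ‖(0 : Sp n) - u‖ := by
    funext u
    simp only [hg, div', rad, zero_sub, norm_neg]
  have hS : ∀ r : ℝ, 0 < √(δ ^ 2 + r ^ 2) := fun r => Real.sqrt_pos.2 (by positivity)
  have hint : IntegrableOn (fun r => r ^ (n - 1) * g r) (Ioi 0) := by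
    have : Nontrivial (Sp n) := Module.nontrivial_of_finrank_pos (R := ℝ) (by
      rw [finrank_euclideanSpace_fin]; omega)
    have h := integrable_div' hn hδ
    rw [hdiv] at h
    simp only [zero_sub, norm_neg] at h
    rw [integrable_fun_norm_addHaar volume, finrank_euclideanSpace_fin] at h
    simpa using h
  set F : ℝ → ℝ := fun r => r ^ n / √(δ ^ 2 + r ^ 2) ^ (n + 1) with hF
  have hd : ∀ r ∈ Ioi (0 : ℝ), HasDerivAt F (r ^ (n - 1) * g r) r := by
    intro r _
    have h1 : HasDerivAt (fun r : ℝ => δ ^ 2 + r ^ 2) (2 * r) r := by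
      simpa using ((hasDerivAt_id r).pow 2).const_add (δ ^ 2)
    have h := (((hasDerivAt_id r).pow n).div ((h1.sqrt (by positivity)).pow (n + 1))
      (pow_pos (hS r) _).ne')
    refine HasDerivAt.congr_deriv h ?_
    obtain ⟨m, rfl⟩ : ∃ m, n = m + 1 := ⟨n - 1, by omega⟩
    have h2 : √(δ ^ 2 + r ^ 2) ^ 2 = δ ^ 2 + r ^ 2 := Real.sq_sqrt (by positivity)
    have hpos := hS r
    simp only [hg, Pi.pow_apply, id_eq, Nat.add_sub_cancel, Nat.cast_add, Nat.cast_one]
    generalize √(δ ^ 2 + r ^ 2) = s at h2 hpos ⊢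
    rw [show δ ^ 2 = s ^ 2 - r ^ 2 by linarith]
    simp only [pow_succ, pow_zero]
    field_simp
    ring
  have hcont : ContinuousWithinAt F (Ici 0) 0 := by
    refine Continuous.continuousWithinAt ?_
    exact Continuous.div (by fun_prop) (by fun_prop) fun r => (pow_pos (hS r) _).ne'
  have hlim : Tendsto F atTop (𝓝 0) := by
    refine squeeze_zero' ?_ ?_ (tendsto_inv_atTop_zero (𝕜 := ℝ))
    · filter_upwards [eventually_ge_atTop 0] with r hr
      positivity
    · filter_upwards [eventually_gt_atTop 0] with r hr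
      calc F r ≤ r ^ n / r ^ (n + 1) := by
            refine div_le_div_of_nonneg_left (by positivity) (by positivity) ?_
            gcongr
            exact Real.le_sqrt_of_sq_le (by nlinarith [sq_nonneg δ])
        _ = r⁻¹ := by
            rw [pow_succ]
            field_simp
  have h0 : F 0 = 0 := by simp [hF, zero_pow (by omega : n ≠ 0)]
  have hv := integral_Ioi_of_hasDerivAt_of_tendsto hcont hd hint hlim
  rw [hdiv, (radial hn hint 0).2, hv, h0, sub_zero, mul_zero]

/-- The derivative of a bump, paired with the transform. -/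
lemma trP_deriv_bump (hn : 1 ≤ n) {δ : ℝ} (hδ : 0 < δ) {e : Sp n} (he : ‖e‖ = 1)
    {f ρ : Sp n → ℝ} {c Cf A : ℝ} (h : IsDens f c Cf) (hρ : IsMoll ρ A) {ε : ℝ} (hε : 0 < ε)
    (x : Sp n) :
    Blk x (ε + 1) (A / ε ^ n / ε) (fun y => fderiv ℝ (bump ρ ε x) y e) ∧
      ∫ y, fderiv ℝ (bump ρ ε x) y e = 0 ∧
      trP δ e f (fun y => fderiv ℝ (bump ρ ε x) y e) = -∫ u, dker δ e u * mol f ρ ε (x - u) := by
  have hA := hρ.A_nonneg
  have hφ : ContDiff ℝ (⊤ : ℕ∞) (bump ρ ε x) :=
    (hρ.contDiff_scl ε).comp (contDiff_const.sub contDiff_id)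
  have hφb := hρ.bump_blk hε x
  have hφd : Differentiable ℝ (bump ρ ε x) := hφ.differentiable (by simp)
  set ψ : Sp n → ℝ := fun y => fderiv ℝ (bump ρ ε x) y e with hψ
  have hψc : Continuous ψ := (hφ.continuous_fderiv (by simp)).clm_apply continuous_const
  have hψb : Blk x (ε + 1) (A / ε ^ n / ε) ψ := by
    refine ⟨hψc.measurable, fun y => ?_, fun y hy => ?_⟩
    · have hl : LipschitzWith (Real.toNNReal (A / ε ^ n / ε)) (bump ρ ε x) :=
        LipschitzWith.of_dist_le_mul fun a b => by
          rw [Real.dist_eq, dist_eq_norm, Real.coe_toNNReal _ (by positivity)]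
          exact hρ.bump_lip hε x a b
      have := (fderiv ℝ (bump ρ ε x) y).le_opNorm e
      rw [he, mul_one] at this
      refine this.trans ((norm_fderiv_le_of_lipschitz ℝ hl).trans ?_)
      rw [Real.coe_toNNReal _ (by positivity)]
    · have : bump ρ ε x =ᶠ[𝓝 y] fun _ => (0 : ℝ) := by
        filter_upwards [ball_mem_nhds y one_pos] with z hz
        refine hφb.zero z ?_
        rw [mem_ball, dist_comm] at hz
        linarith [dist_triangle y z x]
      simp [hψ, this.fderiv_eq]
  have hcomp : HasCompactSupport (bump ρ ε x) :=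
    HasCompactSupport.intro (isCompact_closedBall x ε) fun y hy =>
      hφb.zero y (le_of_lt (not_le.1 hy))
  have hψ0 : ∫ y, ψ y = 0 := by
    have := integral_mul_fderiv_eq_neg_fderiv_mul_of_integrable (μ := volume) (v := e)
      (f := fun _ : Sp n => (1 : ℝ)) (g := bump ρ ε x) (by simp)
      (by simpa using hψb.integrable) (by simpa using hφb.integrable)
      (fun _ _ => differentiableAt_const _) (fun y _ => hφd y)
    simpa using this
  refine ⟨hψb, hψ0, ?_⟩
  have hT := integrand_zero_integrable hn he hδ h.meas h.abs_le (by linarith : 0 < ε + 1) hψb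
  have hk : ∀ z, Integrable fun y => ψ y * ker δ e (y - z) := fun z =>
    (hψb.mul (((continuous_ker hδ e).comp (continuous_id.sub continuous_const)).measurable)
      (fun y => abs_ker_le_delta he hδ (y - z))).integrable
  have hdm := (continuous_dker hδ e).measurable
  have hF : Integrable (fun p : Sp n × Sp n => bump ρ ε x p.1 * (dker δ e p.2 * f (p.1 - p.2)))
      (volume.prod volume) := by
    refine (hφb.integrable.abs.mul_prod ((integrable_dker hn hδ he).abs.mul_const Cf)).mono' ?_
      (Eventually.of_forall fun p => ?_)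
    · have := hφb.meas
      have := h.meas
      exact Measurable.aestronglyMeasurable (by fun_prop)
    · rw [Real.norm_eq_abs, abs_mul, abs_mul]
      gcongr
      exact h.abs_le _
  have hF2 : Integrable (fun p : Sp n × Sp n => bump ρ ε x p.1 * (dker δ e (p.1 - p.2) * f p.2))
      (volume.prod volume) := by
    have hmeas : AEStronglyMeasurable
        (fun p : Sp n × Sp n => bump ρ ε x p.1 * (dker δ e (p.1 - p.2) * f p.2))
        (volume.prod volume) := by
      have := hφb.meas
      have := h.meas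
      exact Measurable.aestronglyMeasurable (by fun_prop)
    rw [integrable_prod_iff hmeas]
    have hd := integrable_dker hn hδ he
    refine ⟨Eventually.of_forall fun y => ?_, ?_⟩
    · exact Integrable.const_mul ((hd.comp_sub_left y).mul_bdd (c := Cf)
        h.meas.aestronglyMeasurable (Eventually.of_forall fun z => by simpa using h.abs_le z))
        (bump ρ ε x y)
    · refine (hφb.integrable.abs.mul_const (Cf * ∫ u, |dker δ e u|)).mono'
        hmeas.norm.integral_prod_right' (Eventually.of_forall fun y => ?_)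
      rw [Real.norm_eq_abs, abs_of_nonneg (integral_nonneg fun z => norm_nonneg _),
        ← integral_sub_left_eq_self (fun u => |dker δ e u|) volume y, ← integral_const_mul,
        ← integral_const_mul]
      refine integral_mono_of_nonneg (Eventually.of_forall fun z => norm_nonneg _)
        (((hd.abs.comp_sub_left y).const_mul Cf).const_mul _) (Eventually.of_forall fun z => ?_)
      simp only [Real.norm_eq_abs, abs_mul]
      refine mul_le_mul_of_nonneg_left ?_ (abs_nonneg _)
      rw [mul_comm Cf]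
      exact mul_le_mul_of_nonneg_left (h.abs_le z) (abs_nonneg _)
  calc trP δ e f ψ = ∫ p, integrand δ e 0 f ψ p ∂(volume.prod volume) :=
        trP_eq_prod hn he hδ h.meas h.abs_le (by linarith) hψb
    _ = ∫ z, ∫ y, integrand δ e 0 f ψ (y, z) := integral_prod_symm _ hT
    _ = ∫ z, -(∫ y, bump ρ ε x y * (dker δ e (y - z) * f z)) := by
        refine integral_congr_ae (Eventually.of_forall fun z => ?_)
        have hz : ∀ y, integrand δ e 0 f ψ (y, z) =
            ψ y * ker δ e (y - z) * f z - ψ y * (ker δ e (0 - z) * f z) := fun y => by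
          simp only [integrand]
          ring
        have hib := integral_mul_fderiv_eq_neg_fderiv_mul_of_integrable (μ := volume) (v := e)
          (f := bump ρ ε x) (g := fun y => ker δ e (y - z))
          (hk z) ?_ ?_ (fun y _ => hφd y)
          (fun y _ => (differentiable_ker hδ e _).comp y (differentiableAt_id.sub_const z))
        · simp only [hz]
          rw [integral_sub ((hk z).mul_const _) (hψb.integrable.mul_const _), integral_mul_const,
            integral_mul_const, hψ0, zero_mul, sub_zero]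
          simp only [fderiv_comp_sub, fderiv_ker hδ] at hib
          simp only [← mul_assoc, integral_mul_const, hib]
          ring
        · simp only [fderiv_comp_sub, fderiv_ker hδ]
          exact (hφb.mul ((continuous_dker hδ e).comp (continuous_id.sub continuous_const)).measurable
            (B := (n + 2) * (δ ^ (n + 1))⁻¹) fun y => (abs_dker_le hδ he _).trans (by
              gcongr
              exact le_rad hδ.le _)).integrable
        · exact (hφb.mul (((continuous_ker hδ e).comp (continuous_id.sub continuous_const)).measurable)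
            (fun y => abs_ker_le_delta he hδ (y - z))).integrable
    _ = -∫ y, ∫ z, bump ρ ε x y * (dker δ e (y - z) * f z) := by
        rw [integral_neg, integral_integral_swap (f := fun z y =>
          bump ρ ε x y * (dker δ e (y - z) * f z)) hF2.swap]
    _ = -∫ y, ∫ u, bump ρ ε x y * (dker δ e u * f (y - u)) := by
        congr 1
        refine integral_congr_ae (Eventually.of_forall fun y => ?_)
        simp only
        rw [← integral_sub_left_eq_self
          (fun u => bump ρ ε x y * (dker δ e u * f (y - u))) volume y]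
        simp only [sub_sub_cancel]
    _ = -∫ u, dker δ e u * mol f ρ ε (x - u) := by
        rw [integral_integral_swap hF]
        congr 1
        refine integral_congr_ae (Eventually.of_forall fun u => ?_)
        simp only [mol]
        rw [← integral_const_mul,
          ← integral_add_right_eq_self (fun y => bump ρ ε x y * (dker δ e u * f (y - u))) u]
        refine integral_congr_ae (Eventually.of_forall fun y => ?_)
        simp only [bump, add_sub_cancel_right]
        rw [show x - (y + u) = x - u - y by abel]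
        ring

/-- A balanced density: the divergence of its transform vanishes. -/
lemma div_tendsto (hn : 1 ≤ n) {f ρ : Sp n → ℝ} {c Cf A : ℝ} (h : IsDens f c Cf)
    (hB : Balanced f) (hρ : IsMoll ρ A) {ε : ℝ} (hε : 0 < ε) (x : Sp n) :
    Tendsto (fun k => ∫ u, div' (dd k) u * mol f ρ ε (x - u)) atTop (𝓝 0) := by
  have hφ : ContDiff ℝ (⊤ : ℕ∞) (bump ρ ε x) :=
    (hρ.contDiff_scl ε).comp (contDiff_const.sub contDiff_id)
  have hj : ∀ j : Fin n, Tendsto (fun k =>
      ∫ u, dker (dd k) (EuclideanSpace.single j (1 : ℝ)) u * mol f ρ ε (x - u)) atTop (𝓝 0) := by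
    intro j
    set e := EuclideanSpace.single j (1 : ℝ)
    have he : ‖e‖ = 1 := by simp [e]
    obtain ⟨hb, h0, -⟩ := trP_deriv_bump hn one_pos he h hρ hε x
    obtain ⟨L, hL⟩ := exists_test2 (R := dist x 0 + (ε + 1))
      ((hφ.fderiv_right (m := (⊤ : ℕ∞)) le_rfl).clm_apply contDiff_const)
      (hb.mono le_rfl le_rfl).zero h0
    have ht := flat_tendsto hn he h hB (by have := dist_nonneg (x := x) (y := (0 : Sp n)); linarith)
      hL
    simp only [fun k => (trP_deriv_bump hn (dd_pos k) he h hρ hε x).2.2] at ht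
    simpa using ht.neg
  have hsum := tendsto_finsetSum Finset.univ fun j _ => hj j
  simp only [Finset.sum_const_zero] at hsum
  refine hsum.congr fun k => ?_
  have hm := h.measurable_mol hρ ε
  rw [← integral_finsetSum]
  · simp only [← Finset.sum_mul, sum_dker (dd_pos k)]
  · intro j _
    refine (integrable_dker hn (dd_pos k) (by simp)).mul_bdd (c := Cf)
      (hm.comp (measurable_const.sub measurable_id)).aestronglyMeasurable
      (Eventually.of_forall fun u => ?_)
    rw [Real.norm_eq_abs, abs_of_nonneg ((h.pos.le).trans (h.mol_ge hρ hε _))]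
    exact h.mol_le hρ hε _

lemma mol_second (hn : 1 ≤ n) {f ρ : Sp n → ℝ} {c Cf A : ℝ} (h : IsDens f c Cf) (hρ : IsMoll ρ A)
    {ε : ℝ} (hε : 0 < ε) :
    ∃ K : ℝ, ∀ x v, |mol f ρ ε (x + v) + mol f ρ ε (x - v) - 2 * mol f ρ ε x| ≤ K * ‖v‖ ^ 2 := by
  have hs := hρ.contDiff_scl ε
  have hc : HasCompactSupport (scl ρ ε) :=
    HasCompactSupport.intro (isCompact_closedBall (0 : Sp n) ε) fun y hy =>
      hρ.scl_zero hε (by rw [mem_closedBall, dist_zero_right] at hy; linarith [not_le.1 hy])
  obtain ⟨L, hL⟩ := ContDiff.lipschitzWith_of_hasCompactSupport (hc.fderiv ℝ)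
    (hs.fderiv_right (m := (⊤ : ℕ∞)) le_rfl) (by simp)
  have hsec := second_le_of_fderiv (hs.differentiable (by simp)) (L := (L : ℝ)) fun a b => by
    rw [← dist_eq_norm, ← dist_eq_norm]
    exact hL.dist_le_mul a b
  set V := (ε + 1) ^ n * vol n
  refine ⟨4 * Cf + (L : ℝ) * Cf * V, fun x v => ?_⟩
  have hCf := h.cf_nonneg
  have hV : 0 ≤ V := by have := vol_nonneg n; positivity
  rcases le_or_gt ‖v‖ 1 with hv | hv
  · have hi : ∀ y, Integrable fun z => bump ρ ε y z * f z := fun y =>
      ((hρ.bump_blk hε y).mul h.meas h.abs_le).integrable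
    have e1 : mol f ρ ε (x + v) + mol f ρ ε (x - v) - 2 * mol f ρ ε x =
        ∫ y, (bump ρ ε (x + v) y * f y + bump ρ ε (x - v) y * f y -
          2 * (bump ρ ε x y * f y)) := by
      rw [integral_sub ((hi _).fun_add (hi _)) ((hi _).const_mul 2), integral_add (hi _) (hi _),
        integral_const_mul]
      rfl
    rw [e1, ← setIntegral_eq_integral_of_forall_compl_eq_zero (s := ball x (ε + 1)) (fun y hy => ?_),
      ← Real.norm_eq_abs]
    · refine (norm_setIntegral_le_of_norm_le_const (C := (L : ℝ) * ‖v‖ ^ 2 * Cf)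
        measure_ball_lt_top fun y _ => ?_).trans ?_
      · rw [Real.norm_eq_abs, show bump ρ ε (x + v) y * f y + bump ρ ε (x - v) y * f y -
          2 * (bump ρ ε x y * f y) = ((scl ρ ε (x - y + v) - scl ρ ε (x - y)) -
            (scl ρ ε (x - y - v + v) - scl ρ ε (x - y - v))) * f y by
          simp only [bump, sub_add_cancel]
          rw [show x + v - y = x - y + v by abel, show x - v - y = x - y - v by abel]
          ring, abs_mul]
        refine mul_le_mul ((hsec _ _ _).trans (le_of_eq ?_)) (h.abs_le y) (abs_nonneg _)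
          (by positivity)
        rw [sub_sub_cancel]
        ring
      · rw [ball_real hn x (by linarith)]
        change _ * V ≤ _
        nlinarith [mul_nonneg hCf (sq_nonneg ‖v‖)]
    · rw [mem_ball, not_lt] at hy
      have z1 : ∀ w : Sp n, ‖w‖ ≤ 1 → bump ρ ε (x + w) y = 0 := fun w hw => by
        refine (hρ.bump_blk hε (x + w)).zero y ?_
        have := dist_triangle y (x + w) x
        rw [dist_self_add_left] at this
        linarith
      have h1 := z1 v hv
      have h2 := z1 (-v) (by rwa [norm_neg])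
      rw [← sub_eq_add_neg] at h2
      have h3 := z1 0 (by simp)
      rw [add_zero] at h3
      simp [h1, h2, h3]
  · have b1 := h.mol_le hρ hε (x + v)
    have b2 := h.mol_le hρ hε (x - v)
    have b3 := h.mol_le hρ hε x
    have c1 := h.mol_ge hρ hε (x + v)
    have c2 := h.mol_ge hρ hε (x - v)
    have c3 := h.mol_ge hρ hε x
    have hc0 := h.pos
    have hv2 : 1 ≤ ‖v‖ ^ 2 := one_le_pow₀ hv.le
    have : 4 * Cf ≤ (4 * Cf + (L : ℝ) * Cf * V) * ‖v‖ ^ 2 := by
      refine le_trans ?_ (mul_le_mul_of_nonneg_left hv2 (by positivity))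
      rw [mul_one]
      linarith [(by positivity : 0 ≤ (L : ℝ) * Cf * V)]
    rw [abs_le]
    constructor <;> linarith

end Vale.Agent.P120.Density
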