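import Vale.Agent.P120.Density.Trunc
import Mathlib.Analysis.Calculus.BumpFunction.InnerProduct
import Mathlib.Analysis.Calculus.BumpFunction.Normed
import Mathlib.Analysis.Calculus.ContDiff.RCLike
import Mathlib.Analysis.Calculus.MeanValue
import Mathlib.MeasureTheory.Measure.Haar.NormedSpace

/-!
# P120: mollifiers
-/

open MeasureTheory Metric Set Filter
open scoped RealInnerProductSpace Topology

namespace Vale.Agent.P120.Density

variable {n : ℕ}

/-- A smooth profile in the unit ball with its bounds. -/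
structure IsMoll (ρ : Sp n → ℝ) (A : ℝ) : Prop where
  smooth : ContDiff ℝ (⊤ : ℕ∞) ρ
  nonneg : ∀ y, 0 ≤ ρ y
  zero : ∀ y, 1 ≤ ‖y‖ → ρ y = 0
  le : ∀ y, ρ y ≤ A
  lip : ∀ y z, |ρ y - ρ z| ≤ A * ‖y - z‖
  mass : ∫ y, ρ y = 1

lemma exists_moll (n : ℕ) : ∃ (ρ : Sp n → ℝ) (A : ℝ), IsMoll ρ A := by
  let B : ContDiffBump (0 : Sp n) := ⟨1 / 4, 1 / 2, by norm_num, by norm_num⟩
  have hs : ContDiff ℝ (⊤ : ℕ∞) (B.normed volume) := B.contDiff_normed
  have hc : HasCompactSupport (B.normed volume) := B.hasCompactSupport_normed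
  obtain ⟨L, hL⟩ := ContDiff.lipschitzWith_of_hasCompactSupport hc hs (by simp)
  obtain ⟨S, hS⟩ := hs.continuous.bounded_above_of_compact_support hc
  refine ⟨B.normed volume, max (L : ℝ) S, hs, B.nonneg_normed, fun y hy => ?_, fun y => ?_,
    fun y z => ?_, B.integral_normed⟩
  · have hb : y ∉ Function.support (B.normed (volume : Measure (Sp n))) := by
      rw [B.support_normed_eq, mem_ball, dist_zero_right]
      simp only [B]
      linarith
    exact Function.notMem_support.1 hb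
  · exact (le_abs_self _).trans ((hS y).trans (le_max_right _ _))
  · rw [← Real.dist_eq, ← dist_eq_norm]
    exact (hL.dist_le_mul y z).trans (mul_le_mul_of_nonneg_right (le_max_left _ _) dist_nonneg)

/-- The profile at scale `ε`. -/
noncomputable def scl (ρ : Sp n → ℝ) (ε : ℝ) (w : Sp n) : ℝ := ρ (ε⁻¹ • w) / ε ^ n

variable {ρ : Sp n → ℝ} {A ε : ℝ}

lemma IsMoll.A_nonneg (h : IsMoll ρ A) : 0 ≤ A := (h.nonneg 0).trans (h.le 0)

lemma IsMoll.scl_nonneg (h : IsMoll ρ A) (hε : 0 < ε) (w : Sp n) : 0 ≤ scl ρ ε w :=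
  div_nonneg (h.nonneg _) (by positivity)

lemma IsMoll.scl_le (h : IsMoll ρ A) (hε : 0 < ε) (w : Sp n) : scl ρ ε w ≤ A / ε ^ n :=
  div_le_div_of_nonneg_right (h.le _) (by positivity)

lemma IsMoll.scl_zero (h : IsMoll ρ A) (hε : 0 < ε) {w : Sp n} (hw : ε ≤ ‖w‖) :
    scl ρ ε w = 0 := by
  rw [scl, h.zero _ ?_, zero_div]
  rw [norm_smul, norm_inv, Real.norm_eq_abs, abs_of_pos hε, inv_mul_eq_div, le_div_iff₀ hε,
    one_mul]
  exact hw

lemma IsMoll.scl_lip (h : IsMoll ρ A) (hε : 0 < ε) (v w : Sp n) :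
    |scl ρ ε v - scl ρ ε w| ≤ A / ε ^ n / ε * ‖v - w‖ := by
  rw [scl, scl, ← sub_div, abs_div, abs_of_pos (pow_pos hε n)]
  refine (div_le_div_of_nonneg_right (h.lip _ _) (by positivity)).trans (le_of_eq ?_)
  rw [← smul_sub, norm_smul, norm_inv, Real.norm_eq_abs, abs_of_pos hε]
  ring

lemma IsMoll.continuous_scl (h : IsMoll ρ A) (ε : ℝ) : Continuous (scl ρ ε) :=
  ((h.smooth.continuous).comp (continuous_const_smul _)).div_const _

lemma IsMoll.contDiff_scl (h : IsMoll ρ A) (ε : ℝ) : ContDiff ℝ (⊤ : ℕ∞) (scl ρ ε) :=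
  (h.smooth.comp (contDiff_const_smul _)).div_const _

lemma IsMoll.scl_mass (h : IsMoll ρ A) (hε : 0 < ε) : ∫ w, scl ρ ε w = 1 := by
  simp only [scl]
  rw [integral_div, Measure.integral_comp_inv_smul_of_nonneg volume ρ hε.le, h.mass,
    finrank_euclideanSpace_fin, smul_eq_mul, mul_one, div_self (by positivity)]

/-- The profile at scale `ε` around `x`. -/
noncomputable def bump (ρ : Sp n → ℝ) (ε : ℝ) (x y : Sp n) : ℝ := scl ρ ε (x - y)

lemma IsMoll.bump_blk (h : IsMoll ρ A) (hε : 0 < ε) (x : Sp n) :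
    Blk x ε (A / ε ^ n) (bump ρ ε x) := by
  refine ⟨((h.continuous_scl ε).comp (continuous_const.sub continuous_id)).measurable,
    fun y => ?_, fun y hy => h.scl_zero hε ?_⟩
  · rw [bump, abs_of_nonneg (h.scl_nonneg hε _)]
    exact h.scl_le hε _
  · rwa [← dist_eq_norm, dist_comm]

lemma IsMoll.bump_lip (h : IsMoll ρ A) (hε : 0 < ε) (x y z : Sp n) :
    |bump ρ ε x y - bump ρ ε x z| ≤ A / ε ^ n / ε * ‖y - z‖ := by
  refine (h.scl_lip hε _ _).trans (le_of_eq ?_)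
  rw [sub_sub_sub_cancel_left, norm_sub_rev]

lemma IsMoll.bump_mass (h : IsMoll ρ A) (hε : 0 < ε) (x : Sp n) : ∫ y, bump ρ ε x y = 1 := by
  simp only [bump]
  rw [integral_sub_left_eq_self (scl ρ ε) volume x]
  exact h.scl_mass hε

/-- The bounds of a smooth test of compact support. -/
structure IsTest2 (ψ : Sp n → ℝ) (R L : ℝ) : Prop where
  zero : ∀ y, R ≤ dist y 0 → ψ y = 0
  bound : ∀ y, |ψ y| ≤ L
  lip : ∀ y z, |ψ y - ψ z| ≤ L * ‖y - z‖
  second : ∀ y z w, |(ψ (y + w) - ψ y) - (ψ (z + w) - ψ z)| ≤ L * ‖w‖ * ‖y - z‖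
  mass : ∫ y, ψ y = 0
  meas : Measurable ψ

lemma second_le_of_fderiv {ψ : Sp n → ℝ} (hψ : Differentiable ℝ ψ) {L : ℝ}
    (hL : ∀ y z, ‖fderiv ℝ ψ y - fderiv ℝ ψ z‖ ≤ L * ‖y - z‖) (y z w : Sp n) :
    |(ψ (y + w) - ψ y) - (ψ (z + w) - ψ z)| ≤ L * ‖w‖ * ‖y - z‖ := by
  have hd : ∀ v, HasFDerivAt (fun u => ψ (u + w) - ψ u) (fderiv ℝ ψ (v + w) - fderiv ℝ ψ v) v :=
    fun v => ((hasFDerivAt_comp_add_right w).2 (hψ (v + w)).hasFDerivAt).sub (hψ v).hasFDerivAt
  have h := Convex.norm_image_sub_le_of_norm_hasFDerivWithin_le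
    (fun v _ => (hd v).hasFDerivWithinAt)
    (fun v _ => (hL (v + w) v).trans_eq (by rw [add_sub_cancel_left])) convex_univ
    (mem_univ z) (mem_univ y)
  simpa only [Real.norm_eq_abs] using h

lemma exists_test2 {ψ : Sp n → ℝ} (hψ : ContDiff ℝ (⊤ : ℕ∞) ψ) {R : ℝ}
    (hz : ∀ y, R ≤ dist y 0 → ψ y = 0) (hm : ∫ y, ψ y = 0) : ∃ L, IsTest2 ψ R L := by
  have hc : HasCompactSupport ψ :=
    HasCompactSupport.intro (isCompact_closedBall (0 : Sp n) R) fun y hy =>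
      hz y (le_of_lt (not_le.1 hy))
  obtain ⟨L1, hL1⟩ := ContDiff.lipschitzWith_of_hasCompactSupport hc hψ (by simp)
  obtain ⟨S, hS⟩ := hψ.continuous.bounded_above_of_compact_support hc
  have hd : ContDiff ℝ (⊤ : ℕ∞) (fderiv ℝ ψ) := hψ.fderiv_right le_rfl
  obtain ⟨L2, hL2⟩ := ContDiff.lipschitzWith_of_hasCompactSupport (hc.fderiv ℝ) hd (by simp)
  refine ⟨max (max (L1 : ℝ) S) L2, hz, fun y => ?_, fun y z => ?_, fun y z w => ?_, hm,
    hψ.continuous.measurable⟩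
  · exact (hS y).trans ((le_max_right _ _).trans (le_max_left _ _))
  · rw [← Real.dist_eq, ← dist_eq_norm]
    exact (hL1.dist_le_mul y z).trans
      (mul_le_mul_of_nonneg_right ((le_max_left _ _).trans (le_max_left _ _)) dist_nonneg)
  · refine (second_le_of_fderiv (hψ.differentiable (by simp))
      (fun a b => ?_) y z w).trans ?_ (b := (L2 : ℝ) * ‖w‖ * ‖y - z‖)
    · rw [← dist_eq_norm, ← dist_eq_norm]
      exact hL2.dist_le_mul a b
    · gcongr
      exact le_max_right _ _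

end Vale.Agent.P120.Density
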