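import Vale.Agent.P120.Density.Test
import Vale.Agent.P120.Density.Mollifier
import Mathlib.MeasureTheory.Covering.Besicovitch
import Mathlib.MeasureTheory.Covering.DensityTheorem

/-!
# P120: a balanced density has constant transform, in the sense of smooth tests
-/

open MeasureTheory Metric Set Filter
open scoped RealInnerProductSpace Topology

namespace Vale.Agent.P120.Density

variable {n : ℕ}

/-- A density between positive constants. -/
structure IsDens (f : Sp n → ℝ) (c Cf : ℝ) : Prop where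
  meas : Measurable f
  pos : 0 < c
  lower : ∀ x, c ≤ f x
  upper : ∀ x, f x ≤ Cf

variable {f ρ : Sp n → ℝ} {c Cf A : ℝ}

lemma IsDens.nonneg (h : IsDens f c Cf) (x : Sp n) : 0 ≤ f x := h.pos.le.trans (h.lower x)

lemma IsDens.abs_le (h : IsDens f c Cf) (x : Sp n) : |f x| ≤ Cf := by
  rw [abs_of_nonneg (h.nonneg x)]
  exact h.upper x

lemma IsDens.cf_nonneg (h : IsDens f c Cf) : 0 ≤ Cf := (h.nonneg 0).trans (h.upper 0)

/-- The mollified density. -/
noncomputable def mol (f ρ : Sp n → ℝ) (ε : ℝ) (x : Sp n) : ℝ := ∫ y, bump ρ ε x y * f y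

/-- The mean oscillation of the density. -/
noncomputable def avg (f : Sp n → ℝ) (ε : ℝ) (x : Sp n) : ℝ :=
  (∫ y in ball x (2 * ε), |f y - f x|) / ε ^ n

lemma avg_nonneg (f : Sp n → ℝ) {ε : ℝ} (hε : 0 < ε) (x : Sp n) : 0 ≤ avg f ε x :=
  div_nonneg (integral_nonneg fun _ => abs_nonneg _) (by positivity)

lemma IsDens.mol_ge (h : IsDens f c Cf) (hρ : IsMoll ρ A) {ε : ℝ} (hε : 0 < ε) (x : Sp n) :
    c ≤ mol f ρ ε x := by
  have hb := hρ.bump_blk hε x
  calc c = ∫ y, bump ρ ε x y * c := by rw [integral_mul_const, hρ.bump_mass hε x, one_mul]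
    _ ≤ mol f ρ ε x := integral_mono (hb.integrable.mul_const c) (hb.mul h.meas h.abs_le).integrable
        fun y => mul_le_mul_of_nonneg_left (h.lower y) (hρ.scl_nonneg hε _)

lemma IsDens.mol_le (h : IsDens f c Cf) (hρ : IsMoll ρ A) {ε : ℝ} (hε : 0 < ε) (x : Sp n) :
    mol f ρ ε x ≤ Cf := by
  have hb := hρ.bump_blk hε x
  calc mol f ρ ε x ≤ ∫ y, bump ρ ε x y * Cf :=
        integral_mono (hb.mul h.meas h.abs_le).integrable (hb.integrable.mul_const Cf)
          fun y => mul_le_mul_of_nonneg_left (h.upper y) (hρ.scl_nonneg hε _)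
    _ = Cf := by rw [integral_mul_const, hρ.bump_mass hε x, one_mul]

lemma IsDens.mol_sub_le (h : IsDens f c Cf) (hρ : IsMoll ρ A) {ε : ℝ} (hε : 0 < ε) (x : Sp n) :
    |mol f ρ ε x - f x| ≤ A * avg f ε x := by
  have hb := hρ.bump_blk hε x
  have hF : Measurable fun y => f y - f x := h.meas.sub measurable_const
  have hFb : ∀ y, |f y - f x| ≤ 2 * Cf := fun y => (abs_sub _ _).trans (by
    linarith [h.abs_le y, h.abs_le x])
  have e1 : mol f ρ ε x - f x = ∫ y in ball x (2 * ε), bump ρ ε x y * (f y - f x) := by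
    rw [setIntegral_eq_integral_of_forall_compl_eq_zero (fun y hy => by
      rw [hb.zero y (by rw [mem_ball, not_lt] at hy; linarith), zero_mul])]
    simp only [mul_sub]
    rw [integral_sub (hb.mul h.meas h.abs_le).integrable (hb.integrable.mul_const _),
      integral_mul_const, hρ.bump_mass hε x, one_mul]
    rfl
  rw [e1, ← Real.norm_eq_abs]
  refine (norm_integral_le_integral_norm _).trans ?_
  simp only [Real.norm_eq_abs]
  refine (int_abs_mul_le hb hF hFb).trans (le_of_eq ?_)
  rw [avg]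
  field_simp

lemma IsDens.avg_le (h : IsDens f c Cf) (hn : 1 ≤ n) {ε : ℝ} (hε : 0 < ε) (x : Sp n) :
    avg f ε x ≤ 2 * Cf * (2 ^ n * vol n) := by
  rw [avg, div_le_iff₀ (pow_pos hε n)]
  refine (int_abs_le hn x hε (g := fun y => f y - f x) (h.meas.sub measurable_const) (M := 2 * Cf)
    fun y => (abs_sub _ _).trans (by linarith [h.abs_le y, h.abs_le x])).trans (le_of_eq ?_)
  ring

lemma IsDens.avg_tendsto (h : IsDens f c Cf) :
    ∀ᵐ x : Sp n, Tendsto (fun k => avg f (dd k) x) atTop (𝓝 0) := by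
  have hloc : LocallyIntegrable f volume := by
    rw [locallyIntegrable_iff]
    exact fun k hk => Measure.integrableOn_of_bounded hk.measure_lt_top.ne
      h.meas.aestronglyMeasurable (M := Cf) (Eventually.of_forall fun y => by
        simpa using h.abs_le y)
  filter_upwards [IsUnifLocDoublingMeasure.ae_tendsto_average_norm_sub
    (μ := (volume : Measure (Sp n))) hloc 1] with x hx
  have hd : Tendsto (fun k => 2 * dd k) atTop (𝓝[>] 0) :=
    tendsto_nhdsWithin_iff.2 ⟨by simpa using dd_tendsto.const_mul 2,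
      Eventually.of_forall fun k => by
        have := dd_pos k
        exact mem_Ioi.2 (by linarith)⟩
  have hlim := (hx (fun _ => x) (fun k => 2 * dd k) hd (Eventually.of_forall fun k => by
    have := dd_pos k
    rw [mem_closedBall, dist_self]
    linarith)).const_mul (2 ^ n * vol n)
  rw [mul_zero] at hlim
  refine squeeze_zero (fun k => avg_nonneg f (dd_pos k) x) (fun k => ?_) hlim
  have hk := dd_pos k
  have hv : volume.real (closedBall x (2 * dd k)) = (2 * dd k) ^ n * vol n := by
    rw [Measure.addHaar_real_closedBall volume x (by positivity), finrank_euclideanSpace_fin, vol]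
  have hvp := vol_pos n
  rw [setAverage_eq, hv, smul_eq_mul, avg]
  simp only [Real.norm_eq_abs]
  have hi : IntegrableOn (fun y => |f y - f x|) (closedBall x (2 * dd k)) :=
    Measure.integrableOn_of_bounded measure_closedBall_lt_top.ne
      (continuous_abs.measurable.comp (h.meas.sub measurable_const)).aestronglyMeasurable
      (M := 2 * Cf) (Eventually.of_forall fun y => by
        rw [Real.norm_eq_abs, abs_abs]
        exact (abs_sub _ _).trans (by linarith [h.abs_le y, h.abs_le x]))
  have hm := setIntegral_mono_set hi (Eventually.of_forall fun y => abs_nonneg _)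
    (Eventually.of_forall (ball_subset_closedBall (x := x) (ε := 2 * dd k)))
  rw [mul_pow]
  refine (div_le_div_of_nonneg_right hm (by positivity)).trans (le_of_eq ?_)
  field_simp

variable {e : Sp n}

lemma IsDens.measurable_mol (h : IsDens f c Cf) (hρ : IsMoll ρ A) (ε : ℝ) :
    Measurable (mol f ρ ε) := by
  have hm : Measurable fun p : Sp n × Sp n => bump ρ ε p.1 p.2 * f p.2 := by
    have := (hρ.continuous_scl ε).measurable
    have := h.meas
    unfold bump
    fun_prop
  exact hm.stronglyMeasurable.integral_prod_right'.measurable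

lemma IsDens.measurable_avg (h : IsDens f c Cf) (ε : ℝ) : Measurable (avg f ε) := by
  have hm : Measurable fun p : Sp n × Sp n =>
      ({q : Sp n × Sp n | dist q.2 q.1 < 2 * ε}).indicator (fun q => |f q.2 - f q.1|) p := by
    refine Measurable.indicator ?_ (measurableSet_lt (by fun_prop) measurable_const)
    have := h.meas
    fun_prop
  have h' := (hm.stronglyMeasurable.integral_prod_right' (ν := volume)).measurable.div_const (ε ^ n)
  have e1 : avg f ε = fun x => (∫ y, ({q : Sp n × Sp n | dist q.2 q.1 < 2 * ε}).indicator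
      (fun q => |f q.2 - f q.1|) (x, y)) / ε ^ n := by
    funext x
    rw [avg, ← integral_indicator measurableSet_ball]
    congr 1
  rw [e1]
  exact h'

lemma measurable_trT {δ : ℝ} (e : Sp n) (hf : Measurable f) : Measurable (trT δ e f) := by
  have hk := measurable_ker (n := n) δ e
  have hm : Measurable fun p : Sp n × Sp n => (ker δ e (p.1 - p.2) - ker δ e (0 - p.2)) * f p.2 := by
    fun_prop
  exact hm.stronglyMeasurable.integral_prod_right'.measurable

lemma measurable_trP_bump {δ : ℝ} (e : Sp n) (hf : Measurable f) (hρ : IsMoll ρ A) (ε : ℝ)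
    {g : Sp n → ℝ} (hg : Measurable g) :
    Measurable fun x => trP δ e f fun y => bump ρ ε x y * g y := by
  have hT := measurable_trT (δ := δ) e hf
  have hm : Measurable fun p : Sp n × Sp n => bump ρ ε p.1 p.2 * g p.2 * trT δ e f p.2 := by
    have := (hρ.continuous_scl ε).measurable
    unfold bump
    fun_prop
  exact hm.stronglyMeasurable.integral_prod_right'.measurable

/-- The pairing with a weight of mean zero. -/
lemma trP_le (hn : 1 ≤ n) : ∃ K : ℝ, 0 ≤ K ∧ ∀ (δ : ℝ) (e : Sp n), 0 < δ → ‖e‖ = 1 →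
    ∀ (f : Sp n → ℝ) (Cf : ℝ), Measurable f → (∀ z, |f z| ≤ Cf) →
    ∀ (x : Sp n) (s A : ℝ), 0 < s → ∀ w : Sp n → ℝ, Blk x s A w →
      (∀ y z, |w y - w z| ≤ A / s * ‖y - z‖) → ∫ y, w y = 0 →
      |trP δ e f w| ≤ K * A * Cf * s ^ n := by
  have hv := vol_nonneg n
  have ha := area_nonneg n
  refine ⟨((n + 2) * 2 ^ n * area n + (2 ^ n * vol n + 4 * area n)) * (2 ^ n * vol n),
    by positivity, ?_⟩
  intro δ e hδ he f Cf hf hfb x s A hs w hw hlip h0
  have hCf : 0 ≤ Cf := (abs_nonneg _).trans (hfb x)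
  have h1 := trP_sub_loc_le hn he hδ hf hfb hs hw h0
  have h2 := loc_left_le hn he hδ hs hw hlip hf hfb
  simp only [mul_one] at h2
  have h3 := mul_le_mul_of_nonneg_left (int_abs_le hn x hs hw.meas hw.bound)
    (by positivity : 0 ≤ (n + 2 : ℝ) * 2 ^ n * area n * Cf)
  have h4 := abs_sub_abs_le_abs_sub (trP δ e f w) (loc δ e x (2 * s) w f)
  linarith

/-- The transform at scale `ε`, minus its constant. -/
noncomputable def err (k : ℕ) (e : Sp n) (f ρ : Sp n → ℝ) (ε : ℝ) (x : Sp n) : ℝ :=
  trP (dd k) e f (fun y => bump ρ ε x y * f y) -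
    mol f ρ ε x / mol f ρ 1 0 * trP (dd k) e f fun y => bump ρ 1 0 y * f y

lemma err_eq (hn : 1 ≤ n) (he : ‖e‖ = 1) (h : IsDens f c Cf) (hρ : IsMoll ρ A) {ε : ℝ}
    (hε : 0 < ε) (k : ℕ) (x : Sp n) :
    err k e f ρ ε x = trP (dd k) e f
      fun y => (bump ρ ε x y - mol f ρ ε x / mol f ρ 1 0 * bump ρ 1 0 y) * f y := by
  simp only [sub_mul, mul_assoc]
  exact (trP_sub_mul hn he (dd_pos k) h.meas h.abs_le hε one_pos
    ((hρ.bump_blk hε x).mul h.meas h.abs_le) ((hρ.bump_blk one_pos 0).mul h.meas h.abs_le) _).symm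

/-- The test behind `err`. -/
lemma test_props (h : IsDens f c Cf) (hρ : IsMoll ρ A) {ε R : ℝ} (hε : 0 < ε) (x : Sp n)
    (hx : dist x 0 ≤ R) :
    Blk (0 : Sp n) (R + ε + 1) (A / ε ^ n + Cf / c * A)
        (fun y => bump ρ ε x y - mol f ρ ε x / mol f ρ 1 0 * bump ρ 1 0 y) ∧
      (∀ y z, |(bump ρ ε x y - mol f ρ ε x / mol f ρ 1 0 * bump ρ 1 0 y) -
          (bump ρ ε x z - mol f ρ ε x / mol f ρ 1 0 * bump ρ 1 0 z)| ≤
          (A / ε ^ n / ε + Cf / c * A) * ‖y - z‖) ∧
      ∫ y, (bump ρ ε x y - mol f ρ ε x / mol f ρ 1 0 * bump ρ 1 0 y) * f y = 0 := by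
  have hR : 0 ≤ R := dist_nonneg.trans hx
  have hm : 0 < mol f ρ 1 0 := h.pos.trans_le (h.mol_ge hρ one_pos 0)
  have hq0 : 0 ≤ mol f ρ ε x / mol f ρ 1 0 :=
    div_nonneg (h.pos.le.trans (h.mol_ge hρ hε x)) hm.le
  have hq : mol f ρ ε x / mol f ρ 1 0 ≤ Cf / c :=
    div_le_div₀ h.cf_nonneg (h.mol_le hρ hε x) h.pos (h.mol_ge hρ one_pos 0)
  have hb1 := (hρ.bump_blk hε x).mono (x' := 0) (s' := R + ε + 1) (by linarith) le_rfl
  have hb2 := (hρ.bump_blk one_pos 0).mono (x' := 0) (s' := R + ε + 1)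
    (by rw [dist_self]; linarith) le_rfl
  have hA := hρ.A_nonneg
  refine ⟨⟨hb1.meas.sub (hb2.meas.const_mul _), fun y => ?_, fun y hy => ?_⟩, fun y z => ?_, ?_⟩
  · refine (abs_sub _ _).trans (add_le_add (hb1.bound y) ?_)
    rw [abs_mul, abs_of_nonneg hq0]
    have h2 := hb2.bound y
    rw [one_pow, div_one] at h2
    exact mul_le_mul hq h2 (abs_nonneg _) (hq0.trans hq)
  · simp [hb1.zero y hy, hb2.zero y hy]
  · rw [show ∀ a b a' b' q : ℝ, (a - q * b) - (a' - q * b') = (a - a') - q * (b - b') from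
      fun a b a' b' q => by ring, add_mul]
    refine (abs_sub _ _).trans (add_le_add (hρ.bump_lip hε x y z) ?_)
    rw [abs_mul, abs_of_nonneg hq0, mul_assoc]
    have h2 := hρ.bump_lip one_pos 0 y z
    rw [one_pow, div_one, div_one] at h2
    exact mul_le_mul hq h2 (abs_nonneg _) (hq0.trans hq)
  · simp only [sub_mul, mul_assoc]
    rw [integral_sub ((hρ.bump_blk hε x).mul h.meas h.abs_le).integrable
      (((hρ.bump_blk one_pos 0).mul h.meas h.abs_le).integrable.const_mul _), integral_const_mul]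
    change mol f ρ ε x - mol f ρ ε x / mol f ρ 1 0 * mol f ρ 1 0 = 0
    field_simp
    ring

lemma err_tendsto (hn : 1 ≤ n) (he : ‖e‖ = 1) (h : IsDens f c Cf) (hB : Balanced f)
    (hρ : IsMoll ρ A) {ε : ℝ} (hε : 0 < ε) (x : Sp n) :
    Tendsto (fun k => err k e f ρ ε x) atTop (𝓝 0) := by
  simp only [fun k => err_eq hn he h hρ hε k x]
  obtain ⟨hb, hl, h0⟩ := test_props h hρ hε x le_rfl
  refine test_tendsto hn he h.meas h.nonneg h.abs_le hB hb
    (L := Real.toNNReal (A / ε ^ n / ε + Cf / c * A))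
    (LipschitzWith.of_dist_le_mul fun y z => ?_) (by positivity) h0
  rw [Real.dist_eq, dist_eq_norm]
  exact (hl y z).trans (mul_le_mul_of_nonneg_right (Real.le_coe_toNNReal _) (norm_nonneg _))

lemma err_bound (hn : 1 ≤ n) (h : IsDens f c Cf) (hρ : IsMoll ρ A) {ε R : ℝ} (hε : 0 < ε) :
    ∃ K : ℝ, ∀ (e : Sp n), ‖e‖ = 1 → ∀ k x, dist x 0 ≤ R → |err k e f ρ ε x| ≤ K := by
  obtain ⟨K, hK, hK'⟩ := commutator_le (n := n) hn
  set S := R + ε + 1 with hS
  set A1 := max (A / ε ^ n + Cf / c * A) (S * (A / ε ^ n / ε + Cf / c * A)) with hA1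
  refine ⟨K * A1 * Cf * (Cf * (2 ^ n * S ^ n * vol n)), fun e he k x hx => ?_⟩
  have hR : 0 ≤ R := dist_nonneg.trans hx
  have hSp : 0 < S := by positivity
  obtain ⟨hb, hl, h0⟩ := test_props h hρ hε x hx
  have hA0 : 0 ≤ A1 := ((abs_nonneg _).trans (hb.bound 0)).trans (le_max_left _ _)
  have := hK' (dd k) e (dd_pos k) he f Cf h.meas h.abs_le 0 S A1 0 0 hSp _
    (hb.mono (by rw [dist_self, zero_add]) (le_max_left _ _))
    (fun y z => (hl y z).trans (mul_le_mul_of_nonneg_right
      (by rw [le_div_iff₀ hSp, mul_comm]; exact le_max_right _ _) (norm_nonneg _)))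
    (by simpa only [sub_zero] using h0)
  simp only [sub_zero, abs_zero, add_zero, zero_mul] at this
  rw [err_eq hn he h hρ hε k x]
  refine this.trans (mul_le_mul_of_nonneg_left (int_abs_le hn 0 hSp h.meas h.abs_le) ?_)
  have := h.cf_nonneg
  positivity

/-- The transform at scale `ε` is nearly constant. -/
lemma tau_le (hn : 1 ≤ n) (h : IsDens f c Cf) (hρ : IsMoll ρ A) :
    ∃ K : ℝ, 0 ≤ K ∧ ∀ (e : Sp n), ‖e‖ = 1 → ∀ (k : ℕ) (ε : ℝ), 0 < ε → ∀ x,
      |trP (dd k) e f (bump ρ ε x) -
          (trP (dd k) e f fun y => bump ρ 1 0 y * f y) / mol f ρ 1 0| ≤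
        (|err k e f ρ ε x| + K * avg f ε x) / c := by
  obtain ⟨K, hK, hK'⟩ := commutator_le (n := n) hn
  have hA := hρ.A_nonneg
  have hCf := h.cf_nonneg
  refine ⟨K * A * (2 * Cf) * (1 + A), by positivity, fun e he k ε hε x => ?_⟩
  have hb := hρ.bump_blk hε x
  set b := mol f ρ ε x with hbdef
  have hw0 : ∫ y, bump ρ ε x y * (f y - b) = 0 := by
    simp only [mul_sub]
    rw [integral_sub (hb.mul h.meas h.abs_le).integrable (hb.integrable.mul_const _),
      integral_mul_const, hρ.bump_mass hε x, one_mul]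
    exact sub_self b
  have hc := hK' (dd k) e (dd_pos k) he f Cf h.meas h.abs_le x ε (A / ε ^ n) (f x) b hε _ hb
    (hρ.bump_lip hε x) hw0
  have hsplit : trP (dd k) e f (fun y => bump ρ ε x y * (f y - b)) =
      trP (dd k) e f (fun y => bump ρ ε x y * f y) - b * trP (dd k) e f (bump ρ ε x) := by
    rw [← trP_sub_mul hn he (dd_pos k) h.meas h.abs_le hε hε (hb.mul h.meas h.abs_le) hb b]
    exact congrArg _ (funext fun y => by ring)
  have hbc : c ≤ b := h.mol_ge hρ hε x
  have hsub := h.mol_sub_le hρ hε x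
  have hav := avg_nonneg f hε x
  have hI : ∫ y in ball x (2 * ε), |f y - f x| = avg f ε x * ε ^ n := by
    rw [avg, div_mul_cancel₀ _ (pow_pos hε n).ne']
  rw [hI] at hc
  have hc' : |trP (dd k) e f (fun y => bump ρ ε x y * (f y - b))| ≤
      K * A * (2 * Cf) * (1 + A) * avg f ε x := by
    refine hc.trans ?_
    have : avg f ε x * ε ^ n + |b - f x| * ε ^ n ≤ (1 + A) * avg f ε x * ε ^ n := by
      rw [← add_mul]
      gcongr
      rw [← hbdef] at hsub
      linarith
    refine (mul_le_mul (mul_le_mul_of_nonneg_left (by linarith [h.abs_le x] :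
      Cf + |f x| ≤ 2 * Cf) (by positivity)) this ?_ (by positivity)).trans (le_of_eq ?_)
    · positivity
    · field_simp
  have e1 : b * (trP (dd k) e f (bump ρ ε x) -
      (trP (dd k) e f fun y => bump ρ 1 0 y * f y) / mol f ρ 1 0) =
      err k e f ρ ε x - trP (dd k) e f (fun y => bump ρ ε x y * (f y - b)) := by
    rw [hsplit, err, ← hbdef]
    ring
  rw [le_div_iff₀ h.pos]
  calc |trP (dd k) e f (bump ρ ε x) - (trP (dd k) e f fun y => bump ρ 1 0 y * f y) / mol f ρ 1 0|
        * c
      ≤ |trP (dd k) e f (bump ρ ε x) -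
          (trP (dd k) e f fun y => bump ρ 1 0 y * f y) / mol f ρ 1 0| * b := by gcongr
    _ = |err k e f ρ ε x - trP (dd k) e f (fun y => bump ρ ε x y * (f y - b))| := by
        rw [← e1, abs_mul, abs_of_pos (h.pos.trans_le hbc), mul_comm]
    _ ≤ _ := (abs_sub _ _).trans (add_le_add le_rfl hc')

lemma swap_tau (hn : 1 ≤ n) (he : ‖e‖ = 1) (h : IsDens f c Cf) (hρ : IsMoll ρ A) {δ ε R L : ℝ}
    (hδ : 0 < δ) (hε : 0 < ε) (hR : 0 < R) {ψ : Sp n → ℝ} (hψ : IsTest2 ψ R L) :
    Integrable (fun x => ψ x * trP δ e f (bump ρ ε x)) ∧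
      ∫ x, ψ x * trP δ e f (bump ρ ε x) =
        trP δ e f fun y => ∫ x, ψ x * bump ρ ε x y := by
  have hψb : Blk (0 : Sp n) R L ψ := ⟨hψ.meas, hψ.bound, hψ.zero⟩
  have hind : Blk (0 : Sp n) (R + ε) 1 ((ball (0 : Sp n) (R + ε)).indicator fun _ => (1 : ℝ)) :=
    ⟨measurable_const.indicator measurableSet_ball, fun y => by
      by_cases hy : y ∈ ball (0 : Sp n) (R + ε) <;> simp [hy], fun y hy =>
      indicator_of_notMem (by rwa [mem_ball, not_lt]) _⟩
  have hT := integrable_mul_trT hn he hδ h.meas h.abs_le (by linarith : 0 < R + ε) hind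
  have hTm := measurable_trT (δ := δ) e h.meas
  have hF : Integrable (fun p : Sp n × Sp n => ψ p.1 * (bump ρ ε p.1 p.2 * trT δ e f p.2))
      (volume.prod volume) := by
    refine ((hψb.integrable.abs.const_mul (A / ε ^ n)).mul_prod hT.abs).mono' ?_
      (Eventually.of_forall fun p => ?_)
    · have := (hρ.continuous_scl ε).measurable
      have := hψ.meas
      unfold bump
      exact Measurable.aestronglyMeasurable (by fun_prop)
    rw [Real.norm_eq_abs, abs_mul, abs_mul]
    by_cases hx : R ≤ dist p.1 0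
    · simp [hψ.zero _ hx]
    by_cases hy : ε ≤ dist p.2 p.1
    · simp only [(hρ.bump_blk hε p.1).zero _ hy, abs_zero, zero_mul, mul_zero]
      have := hρ.A_nonneg
      positivity
    have hmem : p.2 ∈ ball (0 : Sp n) (R + ε) := by
      rw [mem_ball]
      linarith [dist_triangle p.2 p.1 0, not_le.1 hx, not_le.1 hy]
    rw [indicator_of_mem hmem, one_mul, mul_comm (A / ε ^ n) |ψ p.1|, mul_assoc]
    gcongr
    exact (hρ.bump_blk hε p.1).bound _
  refine ⟨?_, ?_⟩
  · have := hF.integral_prod_left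
    simpa only [trP, integral_const_mul] using this
  · unfold trP
    simp only [← integral_const_mul, ← integral_mul_const]
    rw [integral_integral_swap hF]
    simp only [mul_assoc]

/-- Smoothing a test costs little. -/
lemma theta_props (hρ : IsMoll ρ A) {ε R L : ℝ} (hε : 0 < ε) (hε1 : ε ≤ 1)
    {ψ : Sp n → ℝ} (hψ : IsTest2 ψ R L) (hR : 0 < R) :
    Blk (0 : Sp n) (R + 1) (L * (1 + (R + 1)) * ε)
        (fun y => (∫ x, ψ x * bump ρ ε x y) - 1 * ψ y) ∧
      (∀ y z, |((∫ x, ψ x * bump ρ ε x y) - 1 * ψ y) - ((∫ x, ψ x * bump ρ ε x z) - 1 * ψ z)| ≤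
        L * (1 + (R + 1)) * ε / (R + 1) * ‖y - z‖) ∧
      ∫ y, ((∫ x, ψ x * bump ρ ε x y) - 1 * ψ y) = 0 ∧
      Blk (0 : Sp n) (R + 1) (L + L * (1 + (R + 1)) * ε) fun y => ∫ x, ψ x * bump ρ ε x y := by
  have hL : 0 ≤ L := (abs_nonneg _).trans (hψ.bound 0)
  have hs : Blk (0 : Sp n) ε (A / ε ^ n) (scl ρ ε) :=
    ⟨(hρ.continuous_scl ε).measurable, fun w => by
      rw [abs_of_nonneg (hρ.scl_nonneg hε w)]; exact hρ.scl_le hε w,
      fun w hw => hρ.scl_zero hε (by rwa [← dist_zero_right])⟩
  set θ : Sp n → ℝ := fun y => (∫ x, ψ x * bump ρ ε x y) - 1 * ψ y with hθ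
  have hw : ∀ y, Integrable fun w => scl ρ ε w * ψ (y + w) := fun y =>
    (hs.mul (hψ.meas.comp (measurable_const.add measurable_id)) fun w => hψ.bound _).integrable
  have eθ : ∀ y, θ y = ∫ w, scl ρ ε w * (ψ (y + w) - ψ y) := by
    intro y
    simp only [mul_sub, hθ, one_mul]
    rw [integral_sub (hw y) (hs.integrable.mul_const _), integral_mul_const, hρ.scl_mass hε,
      one_mul, ← integral_add_left_eq_self (fun x => ψ x * bump ρ ε x y) y]
    congr 1
    refine integral_congr_ae (Eventually.of_forall fun w => ?_)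
    simp only [bump, add_sub_cancel_left]
    ring
  have hjm : Measurable fun p : Sp n × Sp n => ψ p.2 * bump ρ ε p.2 p.1 := by
    have := (hρ.continuous_scl ε).measurable
    have := hψ.meas
    unfold bump
    fun_prop
  have hconv : Measurable fun y => ∫ x, ψ x * bump ρ ε x y :=
    hjm.stronglyMeasurable.integral_prod_right'.measurable
  have hbd : ∀ y, |θ y| ≤ L * ε := by
    intro y
    rw [eθ y, ← Real.norm_eq_abs]
    refine (norm_integral_le_of_norm_le (hs.integrable.mul_const (L * ε))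
      (Eventually.of_forall fun w => ?_)).trans (le_of_eq ?_)
    · rw [Real.norm_eq_abs, abs_mul, abs_of_nonneg (hρ.scl_nonneg hε w)]
      by_cases h : ε ≤ ‖w‖
      · rw [hρ.scl_zero hε h, zero_mul, zero_mul]
      refine mul_le_mul_of_nonneg_left ((hψ.lip _ _).trans ?_) (hρ.scl_nonneg hε w)
      rw [add_sub_cancel_left]
      exact mul_le_mul_of_nonneg_left (not_le.1 h).le hL
    · rw [integral_mul_const, hρ.scl_mass hε, one_mul]
  have hle : L * ε ≤ L * (1 + (R + 1)) * ε := by
    apply mul_le_mul_of_nonneg_right _ hε.le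
    exact le_mul_of_one_le_right hL (by linarith)
  have hzero : ∀ y, R + 1 ≤ dist y 0 → (∫ x, ψ x * bump ρ ε x y) = 0 := by
    intro y hy
    refine integral_eq_zero_of_ae (Eventually.of_forall fun x => ?_)
    by_cases hx : R ≤ dist x 0
    · simp [hψ.zero x hx]
    · have : ε ≤ dist y x := by linarith [dist_triangle y x 0, not_le.1 hx]
      simp [(hρ.bump_blk hε x).zero y this]
  refine ⟨⟨hconv.sub (hψ.meas.const_mul 1), fun y => (hbd y).trans hle, fun y hy => ?_⟩,
    fun y z => ?_, ?_, ⟨hconv, fun y => ?_, hzero⟩⟩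
  · simp only [hθ, hzero y hy, hψ.zero y (by linarith), mul_zero, sub_zero]
  · change |θ y - θ z| ≤ _
    rw [eθ y, eθ z, ← integral_sub]
    · rw [← Real.norm_eq_abs]
      refine (norm_integral_le_of_norm_le (hs.integrable.mul_const (L * ε * ‖y - z‖))
        (Eventually.of_forall fun w => ?_)).trans ?_
      · rw [Real.norm_eq_abs, ← mul_sub, abs_mul, abs_of_nonneg (hρ.scl_nonneg hε w)]
        by_cases h : ε ≤ ‖w‖
        · rw [hρ.scl_zero hε h, zero_mul, zero_mul]
        refine mul_le_mul_of_nonneg_left ((hψ.second y z w).trans ?_) (hρ.scl_nonneg hε w)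
        gcongr
        exact (not_le.1 h).le
      · rw [integral_mul_const, hρ.scl_mass hε, one_mul]
        refine mul_le_mul_of_nonneg_right ?_ (norm_nonneg _)
        rw [le_div_iff₀ (by linarith : 0 < R + 1)]
        have : L * (R + 1) ≤ L * (1 + (R + 1)) := mul_le_mul_of_nonneg_left (by linarith) hL
        nlinarith
    · simp only [mul_sub]; exact (hw y).sub (hs.integrable.mul_const _)
    · simp only [mul_sub]; exact (hw z).sub (hs.integrable.mul_const _)
  · have hψb : Blk (0 : Sp n) R L ψ := ⟨hψ.meas, hψ.bound, hψ.zero⟩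
    have hp : Integrable (fun p : Sp n × Sp n => scl ρ ε p.2 * ψ (p.1 + p.2))
        (volume.prod volume) := by
      have hind : Integrable ((ball (0 : Sp n) (R + 1)).indicator fun _ => L) :=
        (integrable_indicator_iff measurableSet_ball).2 (integrableOn_const measure_ball_lt_top.ne)
      refine (hind.mul_prod hs.integrable).mono' ?_ (Eventually.of_forall fun p => ?_)
      · have := (hρ.continuous_scl ε).measurable
        have := hψ.meas
        exact Measurable.aestronglyMeasurable (by fun_prop)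
      rw [Real.norm_eq_abs, abs_mul, abs_of_nonneg (hρ.scl_nonneg hε _)]
      by_cases h : ε ≤ ‖p.2‖
      · simp [hρ.scl_zero hε h]
      by_cases h' : p.1 ∈ ball (0 : Sp n) (R + 1)
      · rw [indicator_of_mem h', mul_comm L]
        exact mul_le_mul_of_nonneg_left (hψ.bound _) (hρ.scl_nonneg hε _)
      · rw [indicator_of_notMem h', zero_mul]
        rw [mem_ball, dist_zero_right, not_lt] at h'
        have : R ≤ dist (p.1 + p.2) 0 := by
          rw [dist_zero_right]
          have := norm_sub_le (p.1 + p.2) p.2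
          rw [add_sub_cancel_right] at this
          linarith [not_le.1 h]
        simp [hψ.zero _ this]
    have hp2 : Integrable (fun p : Sp n × Sp n => scl ρ ε p.2 * ψ p.1) (volume.prod volume) :=
      (hψb.integrable.mul_prod hs.integrable).congr (Eventually.of_forall fun p => mul_comm _ _)
    change ∫ y, θ y = 0
    simp only [eθ]
    rw [integral_integral_swap ((hp.sub hp2).congr (Eventually.of_forall fun p => by
      simp only [Pi.sub_apply, Function.uncurry]; ring))]
    refine integral_eq_zero_of_ae (Eventually.of_forall fun w => ?_)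
    simp only [Pi.zero_apply]
    rw [integral_const_mul, integral_sub (hψb.integrable.comp_add_right w) hψb.integrable,
      integral_add_right_eq_self ψ w, sub_self, mul_zero]
  · have := hbd y
    simp only [hθ, one_mul] at this
    have := abs_sub_abs_le_abs_sub (∫ x, ψ x * bump ρ ε x y) (ψ y)
    linarith [hψ.bound y]

/-- A balanced density has constant transform against smooth tests. -/
lemma flat_tendsto (hn : 1 ≤ n) (he : ‖e‖ = 1) (h : IsDens f c Cf) (hB : Balanced f)
    {ψ : Sp n → ℝ} {R L : ℝ} (hR : 0 < R) (hψ : IsTest2 ψ R L) :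
    Tendsto (fun k => trP (dd k) e f ψ) atTop (𝓝 0) := by
  obtain ⟨ρ, A, hρ⟩ := exists_moll n
  obtain ⟨K1, hK1, hK1'⟩ := trP_le (n := n) hn
  obtain ⟨K2, hK2, hK2'⟩ := tau_le (n := n) hn h hρ
  have hL : 0 ≤ L := (abs_nonneg _).trans (hψ.bound 0)
  have hψb : Blk (0 : Sp n) R L ψ := ⟨hψ.meas, hψ.bound, hψ.zero⟩
  set K3 := K1 * (L * (1 + (R + 1))) * Cf * (R + 1) ^ n with hK3
  -- one scale
  have hone : ∀ ε, 0 < ε → ε ≤ 1 → ∀ k, |trP (dd k) e f ψ| ≤ K3 * ε +
      (∫ x, |ψ x| * ((|err k e f ρ ε x| + K2 * avg f ε x) / c)) := by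
    intro ε hε hε1 k
    obtain ⟨t1, t2, t3, t4⟩ := theta_props hρ hε hε1 hψ hR
    have hθ := hK1' (dd k) e (dd_pos k) he f Cf h.meas h.abs_le 0 (R + 1) _ (by linarith) _ t1 t2 t3
    rw [trP_sub_mul hn he (dd_pos k) h.meas h.abs_le (by linarith) hR t4 hψb 1, one_mul] at hθ
    obtain ⟨hi, hs⟩ := swap_tau hn he h hρ (dd_pos k) hε hR hψ
    rw [← hs] at hθ
    set a := (trP (dd k) e f fun y => bump ρ 1 0 y * f y) / mol f ρ 1 0 with ha
    have hdiff : ∫ x, ψ x * trP (dd k) e f (bump ρ ε x) =
        ∫ x, ψ x * (trP (dd k) e f (bump ρ ε x) - a) := by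
      simp only [mul_sub]
      rw [integral_sub hi (hψb.integrable.mul_const a), integral_mul_const, hψ.mass, zero_mul,
        sub_zero]
    obtain ⟨KE, hKE⟩ := err_bound hn h hρ hε (R := R)
    have hg : Integrable fun x => |ψ x| * ((|err k e f ρ ε x| + K2 * avg f ε x) / c) := by
      have hm : Measurable fun x => |ψ x| * ((|err k e f ρ ε x| + K2 * avg f ε x) / c) := by
        have := measurable_trP_bump (δ := dd k) e h.meas hρ ε h.meas
        have := h.measurable_mol hρ ε
        have := h.measurable_avg ε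
        have := hψ.meas
        unfold err
        fun_prop
      refine (hψb.integrable.abs.mul_const ((KE + K2 * (2 * Cf * (2 ^ n * vol n))) / c)).mono'
        hm.aestronglyMeasurable (Eventually.of_forall fun x => ?_)
      have hav := avg_nonneg f hε x
      have := h.pos
      rw [Real.norm_eq_abs, abs_mul, abs_abs, abs_of_nonneg (by positivity :
        0 ≤ (|err k e f ρ ε x| + K2 * avg f ε x) / c)]
      by_cases hx : R ≤ dist x 0
      · simp [hψ.zero x hx]
      gcongr
      · exact hKE e he k x (not_le.1 hx).le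
      · exact h.avg_le hn hε x
    have hb : |∫ x, ψ x * trP (dd k) e f (bump ρ ε x)| ≤
        ∫ x, |ψ x| * ((|err k e f ρ ε x| + K2 * avg f ε x) / c) := by
      rw [hdiff, ← Real.norm_eq_abs]
      refine norm_integral_le_of_norm_le hg (Eventually.of_forall fun x => ?_)
      rw [Real.norm_eq_abs, abs_mul]
      exact mul_le_mul_of_nonneg_left (hK2' e he k ε hε x) (abs_nonneg _)
    have habs := abs_sub_abs_le_abs_sub (trP (dd k) e f ψ)
      (∫ x, ψ x * trP (dd k) e f (bump ρ ε x))
    rw [abs_sub_comm] at hθ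
    have : K1 * (L * (1 + (R + 1)) * ε) * Cf * (R + 1) ^ n = K3 * ε := by rw [hK3]; ring
    linarith
  -- the limit in `k`
  have hlimk : ∀ ε, 0 < ε → Tendsto
      (fun k => ∫ x, |ψ x| * ((|err k e f ρ ε x| + K2 * avg f ε x) / c)) atTop
      (𝓝 (∫ x, |ψ x| * ((0 + K2 * avg f ε x) / c))) := by
    intro ε hε
    obtain ⟨KE, hKE⟩ := err_bound hn h hρ hε (R := R)
    refine tendsto_integral_of_dominated_convergence
      (fun x => |ψ x| * ((KE + K2 * (2 * Cf * (2 ^ n * vol n))) / c)) (fun k => ?_)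
      (hψb.integrable.abs.mul_const _) (fun k => Eventually.of_forall fun x => ?_)
      (Eventually.of_forall fun x => ?_)
    · have := measurable_trP_bump (δ := dd k) e h.meas hρ ε h.meas
      have := h.measurable_mol hρ ε
      have := h.measurable_avg ε
      have := hψ.meas
      unfold err
      exact Measurable.aestronglyMeasurable (by fun_prop)
    · have hav := avg_nonneg f hε x
      have := h.pos
      rw [Real.norm_eq_abs, abs_mul, abs_abs, abs_of_nonneg (by positivity :
        0 ≤ (|err k e f ρ ε x| + K2 * avg f ε x) / c)]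
      by_cases hx : R ≤ dist x 0
      · simp [hψ.zero x hx]
      gcongr
      · exact hKE e he k x (not_le.1 hx).le
      · exact h.avg_le hn hε x
    · have h0 := (err_tendsto hn he h hB hρ hε x).abs
      rw [abs_zero] at h0
      exact ((h0.add_const _).div_const c).const_mul _
  -- the limit in `ε`
  have hlimm : Tendsto (fun m => K3 * dd m + ∫ x, |ψ x| * ((0 + K2 * avg f (dd m) x) / c)) atTop
      (𝓝 0) := by
    have h1 : Tendsto (fun m => ∫ x, |ψ x| * ((0 + K2 * avg f (dd m) x) / c)) atTop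
        (𝓝 (∫ _x : Sp n, (0 : ℝ))) := by
      refine tendsto_integral_of_dominated_convergence
        (fun x => |ψ x| * ((K2 * (2 * Cf * (2 ^ n * vol n))) / c)) (fun m => ?_)
        (hψb.integrable.abs.mul_const _) (fun m => Eventually.of_forall fun x => ?_) ?_
      · have := h.measurable_avg (dd m)
        have := hψ.meas
        exact Measurable.aestronglyMeasurable (by fun_prop)
      · have hav := avg_nonneg f (dd_pos m) x
        have := h.pos
        rw [zero_add, Real.norm_eq_abs, abs_mul, abs_abs, abs_of_nonneg (by positivity :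
          0 ≤ (K2 * avg f (dd m) x) / c)]
        gcongr
        exact h.avg_le hn (dd_pos m) x
      · filter_upwards [h.avg_tendsto] with x hx
        simpa using (((hx.const_mul K2).const_add 0).div_const c).const_mul |ψ x|
    simpa using (dd_tendsto.const_mul K3).add h1
  refine Metric.tendsto_atTop.2 fun η hη => ?_
  obtain ⟨m, hm⟩ := (hlimm.eventually (gt_mem_nhds (half_pos hη))).exists
  have hd1 : dd m ≤ 1 := by
    unfold dd
    exact div_le_one_of_le₀ (by linarith [(Nat.cast_nonneg m : (0 : ℝ) ≤ m)]) (by positivity)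
  obtain ⟨N, hN⟩ := eventually_atTop.1 ((hlimk (dd m) (dd_pos m)).eventually
    (gt_mem_nhds (lt_add_of_pos_right _ (half_pos hη))))
  refine ⟨N, fun k hk => ?_⟩
  rw [Real.dist_eq, sub_zero]
  have := hone (dd m) (dd_pos m) hd1 k
  linarith [hN k hk]

end Vale.Agent.P120.Density
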