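import Vale.Agent.P120.Spec
import Mathlib.MeasureTheory.Constructions.HaarToSphere
import Mathlib.Analysis.SpecialFunctions.ImproperIntegrals
import Mathlib.MeasureTheory.Measure.Lebesgue.EqHaar

/-!
# P120: the smoothed Riesz kernel on the plane
-/

open MeasureTheory Metric Set Filter
open scoped RealInnerProductSpace Topology

namespace Vale.Agent.P120.Density

variable {n : ℕ}

/-- `√(δ² + |u|²)`. -/
noncomputable def rad (δ : ℝ) (u : Sp n) : ℝ := √(δ ^ 2 + ‖u‖ ^ 2)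

/-- The component along `e` of the kernel smoothed at scale `δ`. -/
noncomputable def ker (δ : ℝ) (e u : Sp n) : ℝ := ⟪e, u⟫ / rad δ u ^ (n + 1)

/-- The volume of the unit ball. -/
noncomputable def vol (n : ℕ) : ℝ := volume.real (ball (0 : Sp n) 1)

/-- The area of the unit sphere. -/
noncomputable def area (n : ℕ) : ℝ := n * vol n

lemma vol_nonneg (n : ℕ) : 0 ≤ vol n := measureReal_nonneg

lemma area_nonneg (n : ℕ) : 0 ≤ area n := mul_nonneg (Nat.cast_nonneg n) (vol_nonneg n)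

lemma vol_pos (n : ℕ) : 0 < vol n := by
  unfold vol
  exact ENNReal.toReal_pos (measure_ball_pos _ _ one_pos).ne' measure_ball_lt_top.ne

lemma ball_real (hn : 1 ≤ n) (x : Sp n) {r : ℝ} (hr : 0 ≤ r) :
    volume.real (ball x r) = r ^ n * vol n := by
  have : Nonempty (Fin n) := ⟨⟨0, hn⟩⟩
  have : Nontrivial (Sp n) := Module.nontrivial_of_finrank_pos (R := ℝ) (by
    rw [finrank_euclideanSpace_fin]; omega)
  rw [measureReal_def, Measure.addHaar_ball volume x hr, finrank_euclideanSpace_fin,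
    ENNReal.toReal_mul, ENNReal.toReal_ofReal (pow_nonneg hr n), vol, measureReal_def]

lemma norm_le_rad (δ : ℝ) (u : Sp n) : ‖u‖ ≤ rad δ u := by
  unfold rad
  calc ‖u‖ = √(‖u‖ ^ 2) := (Real.sqrt_sq (norm_nonneg u)).symm
    _ ≤ √(δ ^ 2 + ‖u‖ ^ 2) := Real.sqrt_le_sqrt (le_add_of_nonneg_left (sq_nonneg δ))

lemma le_rad {δ : ℝ} (hδ : 0 ≤ δ) (u : Sp n) : δ ≤ rad δ u := by
  unfold rad
  calc δ = √(δ ^ 2) := (Real.sqrt_sq hδ).symm
    _ ≤ √(δ ^ 2 + ‖u‖ ^ 2) := Real.sqrt_le_sqrt (le_add_of_nonneg_right (sq_nonneg _))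

lemma rad_nonneg (δ : ℝ) (u : Sp n) : 0 ≤ rad δ u := Real.sqrt_nonneg _

lemma rad_pos {δ : ℝ} (hδ : 0 < δ) (u : Sp n) : 0 < rad δ u := hδ.trans_le (le_rad hδ.le u)

lemma rad_neg (δ : ℝ) (u : Sp n) : rad δ (-u) = rad δ u := by rw [rad, rad, norm_neg]

lemma rad_zero_left (u : Sp n) : rad 0 u = ‖u‖ := by
  simp [rad]

lemma rad_sq (δ : ℝ) (u : Sp n) : rad δ u ^ 2 = δ ^ 2 + ‖u‖ ^ 2 :=
  Real.sq_sqrt (by positivity)

lemma abs_rad_sub_le (δ : ℝ) (a b : Sp n) : |rad δ a - rad δ b| ≤ ‖a - b‖ := by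
  rcases eq_or_lt_of_le (add_nonneg (rad_nonneg δ a) (rad_nonneg δ b)) with h | h
  · have ha : rad δ a = 0 := by linarith [rad_nonneg δ a, rad_nonneg δ b]
    have hb : rad δ b = 0 := by linarith [rad_nonneg δ a, rad_nonneg δ b]
    simp [ha, hb]
  · refine le_of_mul_le_mul_right ?_ h
    calc |rad δ a - rad δ b| * (rad δ a + rad δ b)
        = |(rad δ a - rad δ b) * (rad δ a + rad δ b)| := by rw [abs_mul, abs_of_pos h]
      _ = |(‖a‖ - ‖b‖) * (‖a‖ + ‖b‖)| := by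
          congr 1
          nlinarith [rad_sq δ a, rad_sq δ b]
      _ = |‖a‖ - ‖b‖| * (‖a‖ + ‖b‖) := by
          rw [abs_mul, abs_of_nonneg (add_nonneg (norm_nonneg a) (norm_nonneg b))]
      _ ≤ ‖a - b‖ * (rad δ a + rad δ b) := by
          gcongr
          · exact abs_norm_sub_norm_le a b
          · exact norm_le_rad δ a
          · exact norm_le_rad δ b

lemma ker_zero (δ : ℝ) (e : Sp n) : ker δ e 0 = 0 := by simp [ker]

lemma ker_neg (δ : ℝ) (e u : Sp n) : ker δ e (-u) = -ker δ e u := by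
  rw [ker, ker, rad_neg, inner_neg_right, neg_div]

lemma ker_swap (δ : ℝ) (e a b : Sp n) : ker δ e (a - b) = -ker δ e (b - a) := by
  rw [← ker_neg, neg_sub]

lemma inner_riesz (e u : Sp n) : ⟪e, rieszKernel n u⟫ = ker 0 e u := by
  rw [rieszKernel, real_inner_smul_right, ker, rad_zero_left, div_eq_inv_mul]

lemma abs_inner_le {e : Sp n} (he : ‖e‖ = 1) (δ : ℝ) (u : Sp n) : |⟪e, u⟫| ≤ rad δ u := by
  refine (abs_real_inner_le_norm e u).trans ?_
  rw [he, one_mul]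
  exact norm_le_rad δ u

lemma abs_ker_le {e : Sp n} (he : ‖e‖ = 1) (δ : ℝ) (u : Sp n) :
    |ker δ e u| ≤ (‖u‖ ^ n)⁻¹ := by
  rcases eq_or_ne u 0 with rfl | hu
  · rw [ker_zero, abs_zero]
    positivity
  · have hp : 0 < ‖u‖ := norm_pos_iff.2 hu
    have hr : 0 < rad δ u := hp.trans_le (norm_le_rad δ u)
    rw [ker, abs_div, abs_of_pos (pow_pos hr _)]
    calc |⟪e, u⟫| / rad δ u ^ (n + 1) ≤ rad δ u / rad δ u ^ (n + 1) := by
          gcongr
          exact abs_inner_le he δ u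
      _ = (rad δ u ^ n)⁻¹ := by rw [pow_succ]; field_simp
      _ ≤ (‖u‖ ^ n)⁻¹ := by
          gcongr
          exact norm_le_rad δ u

lemma abs_ker_le_delta {e : Sp n} (he : ‖e‖ = 1) {δ : ℝ} (hδ : 0 < δ) (u : Sp n) :
    |ker δ e u| ≤ (δ ^ n)⁻¹ := by
  have hr : 0 < rad δ u := rad_pos hδ u
  rw [ker, abs_div, abs_of_pos (pow_pos hr _)]
  calc |⟪e, u⟫| / rad δ u ^ (n + 1) ≤ rad δ u / rad δ u ^ (n + 1) := by
        gcongr
        exact abs_inner_le he δ u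
    _ = (rad δ u ^ n)⁻¹ := by rw [pow_succ]; field_simp
    _ ≤ (δ ^ n)⁻¹ := by
        gcongr
        exact le_rad hδ.le u

lemma ker_sub_le {e : Sp n} (he : ‖e‖ = 1) (δ : ℝ) {l : ℝ} (hl : 0 < l) {a b : Sp n}
    (ha : l ≤ ‖a‖) (hb : l ≤ ‖b‖) :
    |ker δ e a - ker δ e b| ≤ (n + 2) * ‖a - b‖ * (l ^ (n + 1))⁻¹ := by
  have hla : l ≤ rad δ a := ha.trans (norm_le_rad δ a)
  have hlb : l ≤ rad δ b := hb.trans (norm_le_rad δ b)
  have hA : 0 < rad δ a := hl.trans_le hla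
  have hB : 0 < rad δ b := hl.trans_le hlb
  have hpow : |(rad δ a)⁻¹ ^ (n + 1) - (rad δ b)⁻¹ ^ (n + 1)| ≤
      |(rad δ a)⁻¹ - (rad δ b)⁻¹| * (n + 1) * l⁻¹ ^ n := by
    refine (abs_pow_sub_pow_le _ _ _).trans ?_
    rw [Nat.add_sub_cancel, Nat.cast_add, Nat.cast_one]
    gcongr
    exact max_le (by rw [abs_of_pos (inv_pos.2 hA)]; exact inv_anti₀ hl hla)
      (by rw [abs_of_pos (inv_pos.2 hB)]; exact inv_anti₀ hl hlb)
  have hdiff : rad δ b * |(rad δ a)⁻¹ - (rad δ b)⁻¹| ≤ ‖a - b‖ * l⁻¹ := by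
    have : (rad δ a)⁻¹ - (rad δ b)⁻¹ = (rad δ b - rad δ a) * (rad δ a)⁻¹ * (rad δ b)⁻¹ := by
      field_simp
    rw [this, abs_mul, abs_mul, abs_of_pos (inv_pos.2 hA), abs_of_pos (inv_pos.2 hB)]
    calc rad δ b * (|rad δ b - rad δ a| * (rad δ a)⁻¹ * (rad δ b)⁻¹)
        = |rad δ a - rad δ b| * (rad δ a)⁻¹ := by rw [abs_sub_comm]; field_simp
      _ ≤ ‖a - b‖ * l⁻¹ := by
          gcongr
          exact abs_rad_sub_le δ a b
  have e1 : ker δ e a - ker δ e b = ⟪e, a - b⟫ * (rad δ a)⁻¹ ^ (n + 1) +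
      ⟪e, b⟫ * ((rad δ a)⁻¹ ^ (n + 1) - (rad δ b)⁻¹ ^ (n + 1)) := by
    simp only [ker, inner_sub_right, div_eq_mul_inv, inv_pow]
    ring
  rw [e1]
  refine (abs_add_le _ _).trans ?_
  rw [abs_mul, abs_mul, ← inv_pow l]
  have h1 : |⟪e, a - b⟫| * |(rad δ a)⁻¹ ^ (n + 1)| ≤ ‖a - b‖ * l⁻¹ ^ (n + 1) := by
    rw [abs_of_pos (pow_pos (inv_pos.2 hA) _)]
    gcongr
    exact (abs_real_inner_le_norm e _).trans (by rw [he, one_mul])
  have h2 : |⟪e, b⟫| * |(rad δ a)⁻¹ ^ (n + 1) - (rad δ b)⁻¹ ^ (n + 1)| ≤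
      (n + 1) * ‖a - b‖ * l⁻¹ ^ (n + 1) := by
    calc |⟪e, b⟫| * |(rad δ a)⁻¹ ^ (n + 1) - (rad δ b)⁻¹ ^ (n + 1)|
        ≤ rad δ b * (|(rad δ a)⁻¹ - (rad δ b)⁻¹| * (n + 1) * l⁻¹ ^ n) := by
          gcongr
          exact abs_inner_le he δ b
      _ = (rad δ b * |(rad δ a)⁻¹ - (rad δ b)⁻¹|) * (n + 1) * l⁻¹ ^ n := by ring
      _ ≤ (‖a - b‖ * l⁻¹) * (n + 1) * l⁻¹ ^ n := by gcongr
      _ = (n + 1) * ‖a - b‖ * l⁻¹ ^ (n + 1) := by ring
  linarith

/-- The variation of the kernel seen from outside a doubled ball. -/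
lemma ker_far {e : Sp n} (he : ‖e‖ = 1) (δ : ℝ) {s : ℝ} (hs : 0 < s) {x y z : Sp n}
    (hy : dist y x ≤ s) (hz : 2 * s ≤ dist z x) :
    |ker δ e (y - z) - ker δ e (x - z)| ≤
      (n + 2) * 2 ^ (n + 1) * s * (‖x - z‖ ^ (n + 1))⁻¹ := by
  have hxz : ‖x - z‖ = dist z x := by rw [dist_eq_norm, norm_sub_rev]
  have hl : 0 < ‖x - z‖ / 2 := by rw [hxz]; linarith
  have ha : ‖x - z‖ / 2 ≤ ‖y - z‖ := by
    rw [hxz, ← dist_eq_norm]
    linarith [dist_triangle z y x, dist_comm z y]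
  refine (ker_sub_le he δ hl ha (by linarith)).trans ?_
  calc (n + 2 : ℝ) * ‖y - z - (x - z)‖ * ((‖x - z‖ / 2) ^ (n + 1))⁻¹
      ≤ (n + 2) * s * ((‖x - z‖ / 2) ^ (n + 1))⁻¹ := by
        gcongr
        rw [sub_sub_sub_cancel_right, ← dist_eq_norm]
        exact hy
    _ = (n + 2) * 2 ^ (n + 1) * s * (‖x - z‖ ^ (n + 1))⁻¹ := by
        rw [div_pow, inv_div]
        ring

lemma continuous_rad (δ : ℝ) : Continuous (rad δ : Sp n → ℝ) := by
  unfold rad
  fun_prop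

lemma continuous_ker {δ : ℝ} (hδ : 0 < δ) (e : Sp n) : Continuous (ker δ e) :=
  Continuous.div (by fun_prop) ((continuous_rad δ).pow _) fun u => (pow_pos (rad_pos hδ u) _).ne'

lemma tendsto_ker {d : ℕ → ℝ} (hd : Tendsto d atTop (𝓝 0)) (e u : Sp n) :
    Tendsto (fun k => ker (d k) e u) atTop (𝓝 (ker 0 e u)) := by
  rcases eq_or_ne u 0 with rfl | hu
  · simp only [ker_zero]
    exact tendsto_const_nhds
  · have hc : ContinuousAt (fun δ : ℝ => ker δ e u) 0 := by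
      unfold ker rad
      refine ContinuousAt.div continuousAt_const (by fun_prop) ?_
      have : 0 < ‖u‖ := norm_pos_iff.2 hu
      positivity
    exact hc.tendsto.comp hd

/-- Radial integrals. -/
lemma radial (hn : 1 ≤ n) {g : ℝ → ℝ}
    (hg : IntegrableOn (fun r => r ^ (n - 1) * g r) (Ioi 0)) (x : Sp n) :
    Integrable (fun z : Sp n => g ‖x - z‖) ∧
      ∫ z : Sp n, g ‖x - z‖ = area n * ∫ r in Ioi (0 : ℝ), r ^ (n - 1) * g r := by
  have : Nontrivial (Sp n) := Module.nontrivial_of_finrank_pos (R := ℝ) (by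
    rw [finrank_euclideanSpace_fin]; omega)
  have h0 : Integrable (fun z : Sp n => g ‖z‖) := by
    rw [integrable_fun_norm_addHaar volume, finrank_euclideanSpace_fin]
    simpa using hg
  refine ⟨Integrable.comp_sub_left h0 x, ?_⟩
  rw [integral_sub_left_eq_self (fun z : Sp n => g ‖z‖) volume x, integral_fun_norm_addHaar volume,
    finrank_euclideanSpace_fin, nsmul_eq_mul, smul_eq_mul, area, vol, mul_assoc]
  simp [smul_eq_mul]

lemma int_in (hn : 1 ≤ n) (x : Sp n) {s : ℝ} (hs : 0 ≤ s) :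
    IntegrableOn (fun z => ‖x - z‖ / ‖x - z‖ ^ n) (ball x s) ∧
      ∫ z in ball x s, ‖x - z‖ / ‖x - z‖ ^ n = area n * s := by
  have he : ∀ r ∈ Ioi (0 : ℝ), r ^ (n - 1) * (Iio s).indicator (fun r => r / r ^ n) r =
      (Iio s).indicator (fun _ => (1 : ℝ)) r := by
    intro r (hr : 0 < r)
    by_cases h : r ∈ Iio s
    · rw [indicator_of_mem h, indicator_of_mem h]
      obtain ⟨m, rfl⟩ : ∃ m, n = m + 1 := ⟨n - 1, by omega⟩
      rw [Nat.add_sub_cancel, pow_succ]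
      field_simp
    · rw [indicator_of_notMem h, indicator_of_notMem h, mul_zero]
  have hI : IntegrableOn ((Iio s).indicator fun _ => (1 : ℝ)) (Ioi (0 : ℝ)) := by
    rw [IntegrableOn, integrable_indicator_iff measurableSet_Iio, IntegrableOn,
      Measure.restrict_restrict measurableSet_Iio, Iio_inter_Ioi]
    exact integrableOn_const measure_Ioo_lt_top.ne
  obtain ⟨hi, hv⟩ := radial hn (g := (Iio s).indicator fun r => r / r ^ n)
    ((integrableOn_congr_fun he measurableSet_Ioi).2 hI) x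
  have heq : (fun z : Sp n => (Iio s).indicator (fun r => r / r ^ n) ‖x - z‖) =
      (ball x s).indicator fun z => ‖x - z‖ / ‖x - z‖ ^ n := by
    funext z
    simp only [indicator, mem_Iio, mem_ball, dist_eq_norm, norm_sub_rev z x]
  rw [heq] at hi
  refine ⟨(integrable_indicator_iff measurableSet_ball).1 hi, ?_⟩
  rw [← integral_indicator measurableSet_ball, ← heq, hv,
    setIntegral_congr_fun measurableSet_Ioi he, setIntegral_indicator measurableSet_Iio,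
    Ioi_inter_Iio, setIntegral_const, smul_eq_mul, mul_one, Real.volume_real_Ioo_of_le hs, sub_zero]

lemma int_out (hn : 1 ≤ n) (x : Sp n) {s : ℝ} (hs : 0 < s) :
    IntegrableOn (fun z => (‖x - z‖ ^ (n + 1))⁻¹) (ball x s)ᶜ ∧
      ∫ z in (ball x s)ᶜ, (‖x - z‖ ^ (n + 1))⁻¹ = area n / s := by
  have he : ∀ r ∈ Ioi (0 : ℝ), r ^ (n - 1) * (Ici s).indicator (fun r => (r ^ (n + 1))⁻¹) r =
      (Ici s).indicator (fun r => r ^ (-2 : ℝ)) r := by
    intro r (hr : 0 < r)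
    by_cases h : r ∈ Ici s
    · rw [indicator_of_mem h, indicator_of_mem h, show (-2 : ℝ) = -((2 : ℕ) : ℝ) by norm_num,
        Real.rpow_neg hr.le, Real.rpow_natCast]
      obtain ⟨m, rfl⟩ : ∃ m, n = m + 1 := ⟨n - 1, by omega⟩
      rw [Nat.add_sub_cancel, show m + 1 + 1 = m + 2 by omega, pow_add]
      field_simp
    · rw [indicator_of_notMem h, indicator_of_notMem h, mul_zero]
  have hinter : Ici s ∩ Ioi (0 : ℝ) = Ici s :=
    inter_eq_left.2 fun r (hr : s ≤ r) => hs.trans_le hr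
  have hI : IntegrableOn ((Ici s).indicator fun r => r ^ (-2 : ℝ)) (Ioi (0 : ℝ)) := by
    rw [IntegrableOn, integrable_indicator_iff measurableSet_Ici, IntegrableOn,
      Measure.restrict_restrict measurableSet_Ici, hinter, ← IntegrableOn,
      integrableOn_Ici_iff_integrableOn_Ioi]
    exact integrableOn_Ioi_rpow_of_lt (by norm_num) hs
  obtain ⟨hi, hv⟩ := radial hn (g := (Ici s).indicator fun r => (r ^ (n + 1))⁻¹)
    ((integrableOn_congr_fun he measurableSet_Ioi).2 hI) x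
  have heq : (fun z : Sp n => (Ici s).indicator (fun r => (r ^ (n + 1))⁻¹) ‖x - z‖) =
      (ball x s)ᶜ.indicator fun z => (‖x - z‖ ^ (n + 1))⁻¹ := by
    funext z
    simp only [indicator, mem_Ici, mem_compl_iff, mem_ball, not_lt, dist_eq_norm, norm_sub_rev z x]
  rw [heq] at hi
  refine ⟨(integrable_indicator_iff measurableSet_ball.compl).1 hi, ?_⟩
  rw [← integral_indicator measurableSet_ball.compl, ← heq, hv,
    setIntegral_congr_fun measurableSet_Ioi he, setIntegral_indicator measurableSet_Ici,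
    inter_comm, hinter, integral_Ici_eq_integral_Ioi, integral_Ioi_rpow_of_lt (by norm_num) hs]
  norm_num [Real.rpow_neg_one]
  ring

end Vale.Agent.P120.Density
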