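import Vale.Agent.P120.Density.Divergence

/-!
# P120: a bounded function with vanishing half Laplacian is constant
-/

open MeasureTheory Metric Set Filter
open scoped RealInnerProductSpace Topology

namespace Vale.Agent.P120.Density

variable {n : ℕ}

lemma div'_neg (δ : ℝ) (u : Sp n) : div' δ (-u) = div' δ u := by
  rw [div', div', rad_neg, norm_neg]

lemma div'_out {δ r : ℝ} (hn : 1 ≤ n) (hδ : 0 < δ) (hδr : δ ≤ r / (2 * n)) {u : Sp n}
    (hu : r ≤ ‖u‖) :
    (2 * 2 ^ (n + 3))⁻¹ * (‖u‖ ^ (n + 1))⁻¹ ≤ -div' δ u := by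
  have hn' : (1 : ℝ) ≤ n := by exact_mod_cast hn
  have h2 : 2 * n * δ ≤ r := by
    rw [le_div_iff₀ (by positivity)] at hδr
    linarith
  have h3 : δ ≤ ‖u‖ := by nlinarith
  have hu0 : 0 < ‖u‖ := hδ.trans_le h3
  have hnum : ‖u‖ ^ 2 / 2 ≤ ‖u‖ ^ 2 - n * δ ^ 2 := by
    nlinarith [mul_le_mul (h2.trans hu) h3 hδ.le hu0.le]
  have hrad : rad δ u ≤ 2 * ‖u‖ := by
    rw [rad, Real.sqrt_le_iff]
    exact ⟨by positivity, by nlinarith⟩
  rw [div', ← neg_div, neg_sub]
  refine le_trans (le_of_eq ?_) (div_le_div₀ (by nlinarith) hnum (pow_pos (rad_pos hδ u) _)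
    (pow_le_pow_left₀ (rad_nonneg δ u) hrad _))
  rw [mul_pow]
  simp only [pow_add]
  field_simp

/-- The mass of a nonnegative `w` near a point where it is small. -/
lemma mass_le (hn : 1 ≤ n) {w : Sp n → ℝ} {W K : ℝ} (hw : Measurable w) (hw0 : ∀ x, 0 ≤ w x)
    (hwW : ∀ x, w x ≤ W)
    (hsd : ∀ x v, |w (x + v) + w (x - v) - 2 * w x| ≤ K * ‖v‖ ^ 2)
    (x : Sp n) (hlim : Tendsto (fun k => ∫ u, div' (dd k) u * w (x - u)) atTop (𝓝 0))
    {r R : ℝ} (hr : 0 < r) (hr1 : r ≤ 1) (hR : 0 < R) :
    ∫ u in ball (0 : Sp n) R, w (x - u) ≤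
      R ^ (n + 1) * (2 * 2 ^ (n + 3)) * ((n + 1) * area n * (w x / r + K * r)) +
        W * vol n * r := by
  have hwb : ∀ y, ‖w y‖ ≤ W := fun y => by rw [Real.norm_eq_abs, abs_of_nonneg (hw0 y)]; exact hwW y
  have hW : 0 ≤ W := (hw0 x).trans (hwW x)
  have hwm : Measurable fun u => w (x - u) := hw.comp (measurable_const.sub measurable_id)
  have hwm' : Measurable fun u => w (x + u) := hw.comp (measurable_const.add measurable_id)
  have hK : 0 ≤ K := by
    have : Nontrivial (Sp n) := Module.nontrivial_of_finrank_pos (R := ℝ) (by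
      rw [finrank_euclideanSpace_fin]; omega)
    obtain ⟨v, hv⟩ := exists_ne (0 : Sp n)
    have := (abs_nonneg _).trans (hsd x v)
    exact nonneg_of_mul_nonneg_left this (pow_pos (norm_pos_iff.2 hv) 2)
  set O := (ball (0 : Sp n) r)ᶜ with hO
  have hout := int_out hn (0 : Sp n) hr
  have hin := int_in hn (0 : Sp n) hr.le
  simp only [zero_sub, norm_neg] at hout hin
  have hwO : IntegrableOn (fun u => (‖u‖ ^ (n + 1))⁻¹ * w (x - u)) O :=
    hout.1.mul_bdd hwm.aestronglyMeasurable.restrict (Eventually.of_forall fun u => hwb _)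
  have key : ∀ k, dd k ≤ r / (2 * n) →
      (2 * 2 ^ (n + 3))⁻¹ * (∫ u in O, (‖u‖ ^ (n + 1))⁻¹ * w (x - u)) ≤
        (n + 1) * area n * (w x / r + K * r) + |∫ u, div' (dd k) u * w (x - u)| := by
    intro k hk
    have hδ := dd_pos k
    set M := div' (n := n) (dd k) with hM
    have hMi : Integrable M := integrable_div' hn hδ
    have i1 : Integrable fun u => M u * w (x - u) :=
      hMi.mul_bdd hwm.aestronglyMeasurable (Eventually.of_forall fun u => hwb _)
    have i2 : Integrable fun u => M u * w (x + u) :=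
      hMi.mul_bdd hwm'.aestronglyMeasurable (Eventually.of_forall fun u => hwb _)
    have hodd : ∫ u in ball (0 : Sp n) r, M u * w (x + u) =
        ∫ u in ball (0 : Sp n) r, M u * w (x - u) := by
      rw [← integral_indicator measurableSet_ball, ← integral_indicator measurableSet_ball,
        ← integral_neg_eq_self]
      refine integral_congr_ae (Eventually.of_forall fun u => ?_)
      by_cases hu : u ∈ ball (0 : Sp n) r
      · have : -u ∈ ball (0 : Sp n) r := by simpa using hu
        simp only [indicator_of_mem hu, indicator_of_mem this, hM, div'_neg, ← sub_eq_add_neg]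
      · have : -u ∉ ball (0 : Sp n) r := by simpa using hu
        simp only [indicator_of_notMem hu, indicator_of_notMem this]
    have hB : |∫ u in ball (0 : Sp n) r, M u| ≤ (n + 1) * (area n / r) := by
      have h0 := integral_div' hn hδ
      rw [← integral_add_compl (measurableSet_ball (x := (0 : Sp n)) (ε := r)) hMi,
        add_eq_zero_iff_eq_neg] at h0
      rw [h0, abs_neg, ← Real.norm_eq_abs]
      refine (norm_integral_le_of_norm_le (hout.1.const_mul ((n : ℝ) + 1)) ?_).trans_eq
        (by rw [integral_const_mul, hout.2])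
      filter_upwards [ae_restrict_mem measurableSet_ball.compl] with u hu
      have hu' : r ≤ ‖u‖ := by simpa using hu
      refine (abs_div'_le hδ u).trans ?_
      gcongr
      · exact pow_pos (hr.trans_le hu') _
      · exact norm_le_rad _ _
    have hrem : |∫ u in ball (0 : Sp n) r, M u * (w (x + u) + w (x - u) - 2 * w x)| ≤
        (n + 1) * K * (area n * r) := by
      rw [← hin.2, ← integral_const_mul, ← Real.norm_eq_abs]
      refine norm_integral_le_of_norm_le (hin.1.const_mul _) (Eventually.of_forall fun u => ?_)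
      rw [Real.norm_eq_abs, abs_mul]
      calc |M u| * |w (x + u) + w (x - u) - 2 * w x|
          ≤ (n + 1) * (rad (dd k) u ^ (n + 1))⁻¹ * (K * ‖u‖ ^ 2) := by
            refine mul_le_mul (abs_div'_le hδ u) (hsd x u) (abs_nonneg _) ?_
            have := rad_nonneg (dd k) u
            positivity
        _ ≤ (n + 1) * K * (‖u‖ / ‖u‖ ^ n) := by
            rcases eq_or_ne u 0 with rfl | hu
            · simp
            have hp : 0 < ‖u‖ := norm_pos_iff.2 hu
            calc (n + 1) * (rad (dd k) u ^ (n + 1))⁻¹ * (K * ‖u‖ ^ 2)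
                ≤ (n + 1) * (‖u‖ ^ (n + 1))⁻¹ * (K * ‖u‖ ^ 2) := by
                  gcongr
                  exact norm_le_rad _ _
              _ = (n + 1) * K * (‖u‖ / ‖u‖ ^ n) := by
                  rw [pow_succ]
                  field_simp
    have hsplit : ∫ u in ball (0 : Sp n) r, M u * (w (x + u) + w (x - u) - 2 * w x) =
        2 * (∫ u in ball (0 : Sp n) r, M u * w (x - u)) -
          2 * w x * ∫ u in ball (0 : Sp n) r, M u := by
      simp only [mul_sub, mul_add]
      rw [integral_sub (i2.restrict.fun_add i1.restrict) (hMi.restrict.mul_const _),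
        integral_add i2.restrict i1.restrict, hodd, integral_mul_const]
      ring
    have hball : |∫ u in ball (0 : Sp n) r, M u * w (x - u)| ≤
        w x * ((n + 1) * (area n / r)) + (n + 1) * K * (area n * r) := by
      have h1 : (∫ u in ball (0 : Sp n) r, M u * w (x - u)) =
          w x * (∫ u in ball (0 : Sp n) r, M u) +
            2⁻¹ * ∫ u in ball (0 : Sp n) r, M u * (w (x + u) + w (x - u) - 2 * w x) := by
        rw [hsplit]; ring
      rw [h1]
      refine (abs_add_le _ _).trans (add_le_add ?_ ?_)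
      · rw [abs_mul, abs_of_nonneg (hw0 x)]
        exact mul_le_mul_of_nonneg_left hB (hw0 x)
      · rw [abs_mul, abs_of_pos (by norm_num : (0 : ℝ) < 2⁻¹)]
        linarith [abs_nonneg (∫ u in ball (0 : Sp n) r, M u * (w (x + u) + w (x - u) - 2 * w x))]
    have hOle : (2 * 2 ^ (n + 3))⁻¹ * (∫ u in O, (‖u‖ ^ (n + 1))⁻¹ * w (x - u)) ≤
        -∫ u in O, M u * w (x - u) := by
      rw [← integral_const_mul, ← integral_neg]
      refine setIntegral_mono_on (hwO.const_mul _) i1.neg.integrableOn measurableSet_ball.compl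
        fun u hu => ?_
      rw [← mul_assoc, ← neg_mul]
      exact mul_le_mul_of_nonneg_right (div'_out hn hδ hk (by simpa [hO] using hu)) (hw0 _)
    have htot := integral_add_compl (measurableSet_ball (x := (0 : Sp n)) (ε := r)) i1
    rw [← hO] at htot
    have := le_abs_self (∫ u in ball (0 : Sp n) r, M u * w (x - u))
    have := neg_abs_le (∫ u, M u * w (x - u))
    have e1 : w x * ((n + 1) * (area n / r)) + (n + 1) * K * (area n * r) =
        (n + 1) * area n * (w x / r + K * r) := by ring
    linarith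
  have hfin : (2 * 2 ^ (n + 3))⁻¹ * (∫ u in O, (‖u‖ ^ (n + 1))⁻¹ * w (x - u)) ≤
      (n + 1) * area n * (w x / r + K * r) := by
    have ht := (hlim.abs.const_add ((n + 1) * area n * (w x / r + K * r)))
    rw [abs_zero, add_zero] at ht
    refine ge_of_tendsto ht ?_
    have hnp : (0 : ℝ) < n := by exact_mod_cast hn
    filter_upwards [dd_tendsto.eventually (ge_mem_nhds (by positivity : (0 : ℝ) < r / (2 * n)))]
      with k hk
    exact key k hk
  have hwi : ∀ s, IntegrableOn (fun u => w (x - u)) (ball (0 : Sp n) s) := fun s =>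
    Measure.integrableOn_of_bounded measure_ball_lt_top.ne hwm.aestronglyMeasurable (M := W)
      (Eventually.of_forall fun u => hwb _)
  have hann : ∫ u in ball (0 : Sp n) R \ ball 0 r, w (x - u) ≤
      R ^ (n + 1) * ∫ u in O, (‖u‖ ^ (n + 1))⁻¹ * w (x - u) := by
    rw [← integral_const_mul]
    refine (setIntegral_mono_on ((hwi R).mono_set sdiff_subset)
      ((hwO.mono_set fun u hu => hu.2).const_mul _)
      (measurableSet_ball.diff measurableSet_ball) fun u hu => ?_).trans
      (setIntegral_mono_set (hwO.const_mul _) (Eventually.of_forall fun u => ?_)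
        (Eventually.of_forall fun u hu => hu.2))
    · have hu1 : r ≤ ‖u‖ := by simpa using hu.2
      have hu2 : ‖u‖ < R := by simpa using hu.1
      rw [← mul_assoc]
      refine le_mul_of_one_le_left (hw0 _) ?_
      rw [← div_eq_mul_inv, le_div_iff₀ (pow_pos (hr.trans_le hu1) _), one_mul]
      exact pow_le_pow_left₀ (norm_nonneg _) hu2.le _
    · have := hw0 (x - u)
      positivity
  have hsmall : ∫ u in ball (0 : Sp n) r, w (x - u) ≤ W * vol n * r := by
    refine (setIntegral_mono_on (hwi r) (integrableOn_const measure_ball_lt_top.ne)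
      measurableSet_ball fun u _ => hwW _).trans ?_
    rw [setIntegral_const, smul_eq_mul, ball_real hn 0 hr.le]
    have : r ^ n ≤ r := pow_le_of_le_one hr.le hr1 (by omega)
    nlinarith [mul_nonneg hW (vol_nonneg n)]
  have hcover : ∫ u in ball (0 : Sp n) R, w (x - u) ≤
      (∫ u in ball (0 : Sp n) R \ ball 0 r, w (x - u)) + ∫ u in ball (0 : Sp n) r, w (x - u) := by
    rw [← setIntegral_union disjoint_sdiff_left measurableSet_ball
      ((hwi R).mono_set sdiff_subset) (hwi r), sdiff_union_self]
    exact setIntegral_mono_set (by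
      exact ((hwi R).union (hwi r))) (Eventually.of_forall fun u => hw0 _)
      (Eventually.of_forall subset_union_left)
  have h2 : ∫ u in O, (‖u‖ ^ (n + 1))⁻¹ * w (x - u) ≤
      2 * 2 ^ (n + 3) * ((n + 1) * area n * (w x / r + K * r)) := by
    rwa [inv_mul_le_iff₀ (by positivity)] at hfin
  have h3 := mul_le_mul_of_nonneg_left h2 (pow_nonneg hR.le (n + 1))
  rw [← mul_assoc] at h3
  linarith

/-- A bounded function with vanishing half Laplacian is constant. -/
lemma const_of_div (hn : 1 ≤ n) {g : Sp n → ℝ} {G K : ℝ} (hg : Measurable g)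
    (hG : ∀ x, |g x| ≤ G) (hsd : ∀ x v, |g (x + v) + g (x - v) - 2 * g x| ≤ K * ‖v‖ ^ 2)
    (hlim : ∀ x, Tendsto (fun k => ∫ u, div' (dd k) u * g (x - u)) atTop (𝓝 0)) (x : Sp n) :
    g x = g 0 := by
  suffices hle : ∀ a y, g (y + a) ≤ g y by
    have h1 := hle x 0
    have h2 := hle (-x) x
    rw [zero_add] at h1
    rw [add_neg_cancel] at h2
    linarith
  intro a y
  by_contra hcon
  set D : Sp n → ℝ := fun z => g (z + a) - g z with hD
  have hbdd : BddAbove (range D) := ⟨2 * G, by
    rintro _ ⟨z, rfl⟩
    simp only [hD]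
    linarith [(abs_le.1 (hG (z + a))).2, (abs_le.1 (hG z)).1]⟩
  set S := ⨆ z, D z with hS
  have hSpos : 0 < S := lt_of_lt_of_le (sub_pos.2 (not_le.1 hcon)) (le_ciSup hbdd y)
  set w : Sp n → ℝ := fun z => S - D z with hw
  have hw0 : ∀ z, 0 ≤ w z := fun z => sub_nonneg.2 (le_ciSup hbdd z)
  have hS2 : S ≤ 2 * G := ciSup_le fun z => by
    simp only [hD]
    linarith [(abs_le.1 (hG (z + a))).2, (abs_le.1 (hG z)).1]
  have hwW : ∀ z, w z ≤ 4 * G := fun z => by
    simp only [hw, hD]
    linarith [(abs_le.1 (hG (z + a))).1, (abs_le.1 (hG z)).2]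
  have hwm : Measurable w := by
    simp only [hw, hD]
    fun_prop
  have hwsd : ∀ z v, |w (z + v) + w (z - v) - 2 * w z| ≤ (2 * K) * ‖v‖ ^ 2 := fun z v => by
    have e1 : w (z + v) + w (z - v) - 2 * w z = (g (z + v) + g (z - v) - 2 * g z) -
        (g (z + a + v) + g (z + a - v) - 2 * g (z + a)) := by
      simp only [hw, hD]
      rw [show z + v + a = z + a + v by abel, show z - v + a = z + a - v by abel]
      ring
    rw [e1]
    refine (abs_sub _ _).trans ?_
    linarith [hsd z v, hsd (z + a) v]
  have hgi : ∀ k z, Integrable fun u => div' (n := n) (dd k) u * g (z - u) := fun k z =>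
    (integrable_div' hn (dd_pos k)).mul_bdd (c := G)
      (hg.comp (measurable_const.sub measurable_id)).aestronglyMeasurable
      (Eventually.of_forall fun u => hG _)
  have hwlim : ∀ z, Tendsto (fun k => ∫ u, div' (dd k) u * w (z - u)) atTop (𝓝 0) := fun z => by
    have := (hlim z).sub (hlim (z + a))
    rw [sub_zero] at this
    refine this.congr fun k => ?_
    have hM := integrable_div' (n := n) hn (dd_pos k)
    have e1 : ∀ u, div' (dd k) u * w (z - u) = S * div' (dd k) u +
        (div' (dd k) u * g (z - u) - div' (dd k) u * g (z + a - u)) := fun u => by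
      simp only [hw, hD]
      rw [show z - u + a = z + a - u by abel]
      ring
    simp only [e1]
    have hsub : Integrable fun u =>
        div' (dd k) u * g (z - u) - div' (dd k) u * g (z + a - u) :=
      Integrable.sub (hgi k z) (hgi k (z + a))
    rw [integral_add (hM.const_mul S) hsub,
      integral_sub (hgi k z) (hgi k (z + a)), integral_const_mul, integral_div' hn (dd_pos k),
      mul_zero, zero_add]
  set V := vol n with hV
  have hVp : 0 < V := vol_pos n
  have hG0 : 0 ≤ G := (abs_nonneg _).trans (hG y)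
  obtain ⟨N, hN⟩ := exists_nat_gt (4 * G / S)
  set R := 1 + N * ‖a‖ + 1 with hRdef
  set Cw := R ^ (n + 1) * (2 * 2 ^ (n + 3)) * ((n + 1) * area n * (1 + |2 * K|)) + 4 * G * V + 1
    with hCw
  have hR : 0 < R := by positivity
  have hC : 0 < Cw := by
    have := area_nonneg n
    positivity
  set r := min 1 (S * V / 2 / Cw) with hrdef
  have hr : 0 < r := lt_min one_pos (by positivity)
  obtain ⟨z, hz⟩ := exists_lt_of_lt_ciSup (show S - r ^ 2 < ⨆ z, D z by
    rw [← hS]; linarith [pow_pos hr 2])
  have hwz : w z ≤ r ^ 2 := by simp only [hw]; linarith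
  have hmass := mass_le hn hwm hw0 hwW hwsd z (hwlim z) hr (min_le_left _ _) hR
  have hsmall : ∫ u in ball (0 : Sp n) R, w (z - u) ≤ S * V / 2 := by
    refine hmass.trans ?_
    have hr2 : w z / r ≤ r := by rw [div_le_iff₀ hr, ← sq]; exact hwz
    have hK2 : 2 * K * r ≤ |2 * K| * r := mul_le_mul_of_nonneg_right (le_abs_self _) hr.le
    calc R ^ (n + 1) * (2 * 2 ^ (n + 3)) * ((n + 1) * area n * (w z / r + 2 * K * r)) +
          4 * G * V * r
        ≤ R ^ (n + 1) * (2 * 2 ^ (n + 3)) * ((n + 1) * area n * ((1 + |2 * K|) * r)) +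
          4 * G * V * r := by
          have := area_nonneg n
          gcongr
          rw [add_mul, one_mul]
          exact add_le_add hr2 hK2
      _ ≤ Cw * r := by rw [hCw]; nlinarith
      _ ≤ Cw * (S * V / 2 / Cw) := mul_le_mul_of_nonneg_left (min_le_right _ _) hC.le
      _ = S * V / 2 := by field_simp
  have hvol : volume.real (ball (0 : Sp n) 1) = V := rfl
  have hwi : ∀ c : Sp n, IntegrableOn (fun u => w (c - u)) (ball (0 : Sp n) 1) := fun c =>
    Measure.integrableOn_of_bounded measure_ball_lt_top.ne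
      (hwm.comp (measurable_const.sub measurable_id)).aestronglyMeasurable (M := 4 * G)
      (Eventually.of_forall fun u => by
        simp only [Real.norm_eq_abs]
        rw [abs_of_nonneg (hw0 _)]
        exact hwW _)
  have hwR : IntegrableOn (fun u => w (z - u)) (ball (0 : Sp n) R) :=
    Measure.integrableOn_of_bounded measure_ball_lt_top.ne
      (hwm.comp (measurable_const.sub measurable_id)).aestronglyMeasurable (M := 4 * G)
      (Eventually.of_forall fun u => by
        simp only [Real.norm_eq_abs]
        rw [abs_of_nonneg (hw0 _)]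
        exact hwW _)
  have htrans : ∀ j ∈ Finset.range N, ∫ u in ball (0 : Sp n) 1, w (z + (j : ℝ) • a - u) ≤
      ∫ u in ball (0 : Sp n) R, w (z - u) := by
    intro j hj
    have hj' : (j : ℝ) ≤ N := by exact_mod_cast (Finset.mem_range.1 hj).le
    rw [← integral_indicator measurableSet_ball, ← integral_indicator measurableSet_ball,
      ← integral_add_right_eq_self _ ((j : ℝ) • a)]
    refine integral_mono_of_nonneg (Eventually.of_forall fun u => indicator_nonneg
      (fun v _ => hw0 _) _) ((integrable_indicator_iff measurableSet_ball).2 hwR)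
      (Eventually.of_forall fun u => ?_)
    by_cases hu : u + (j : ℝ) • a ∈ ball (0 : Sp n) 1
    · have hu' : u ∈ ball (0 : Sp n) R := by
        rw [mem_ball, dist_zero_right] at hu ⊢
        have := norm_sub_le (u + (j : ℝ) • a) ((j : ℝ) • a)
        rw [add_sub_cancel_right, norm_smul, Real.norm_eq_abs,
          abs_of_nonneg (Nat.cast_nonneg j)] at this
        have := mul_le_mul_of_nonneg_right hj' (norm_nonneg a)
        rw [hRdef]
        linarith
      simp only [indicator_of_mem hu, indicator_of_mem hu', add_sub_add_right_eq_sub, le_refl]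
    · simp only [indicator_of_notMem hu]
      exact indicator_nonneg (fun v _ => hw0 _) _
  have htel : ∀ u, g (z + (N : ℝ) • a - u) - g (z - u) =
      ∑ j ∈ Finset.range N, (S - w (z + (j : ℝ) • a - u)) := fun u => by
    have h := Finset.sum_range_sub (fun j : ℕ => g (z + (j : ℝ) • a - u)) N
    simp only [Nat.cast_zero, zero_smul, add_zero] at h
    rw [← h]
    refine Finset.sum_congr rfl fun j _ => ?_
    simp only [hw, hD, sub_sub_cancel]
    congr 1
    rw [Nat.cast_succ, add_smul, one_smul]
    congr 1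
    abel
  have hcmp : ∫ u in ball (0 : Sp n) 1, ∑ j ∈ Finset.range N, (S - w (z + (j : ℝ) • a - u)) ≤
      2 * G * V := by
    simp only [← htel]
    refine (le_abs_self _).trans ?_
    rw [← hvol, ← Real.norm_eq_abs]
    refine norm_setIntegral_le_of_norm_le_const measure_ball_lt_top fun u _ => ?_
    exact (abs_sub _ _).trans (by linarith [hG (z + (N : ℝ) • a - u), hG (z - u)])
  have hi : ∀ j ∈ Finset.range N,
      IntegrableOn (fun u => S - w (z + (j : ℝ) • a - u)) (ball (0 : Sp n) 1) := fun j _ =>
    (integrableOn_const measure_ball_lt_top.ne).sub (hwi _)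
  rw [integral_finsetSum _ hi] at hcmp
  have hlow : ∀ j ∈ Finset.range N,
      S * V / 2 ≤ ∫ u in ball (0 : Sp n) 1, (S - w (z + (j : ℝ) • a - u)) := fun j hj => by
    have hc : IntegrableOn (fun _ => S) (ball (0 : Sp n) 1) :=
      integrableOn_const measure_ball_lt_top.ne
    rw [integral_sub hc (hwi _), setIntegral_const,
      smul_eq_mul, hvol]
    linarith [(htrans j hj).trans hsmall]
  have hsum := (Finset.card_nsmul_le_sum _ _ _ hlow).trans hcmp
  rw [Finset.card_range, nsmul_eq_mul] at hsum
  rw [div_lt_iff₀ hSpos] at hN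
  nlinarith [mul_lt_mul_of_pos_right hN hVp]

end Vale.Agent.P120.Density
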