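import Vale.Agent.P120.Density.Trunc
import Mathlib.MeasureTheory.Integral.Bochner.ContinuousLinearMap

/-!
# P120: the hypothesis on the density, read on the smoothed transform
-/

open MeasureTheory Metric Set Filter
open scoped RealInnerProductSpace Topology

namespace Vale.Agent.P120.Density

variable {n : ℕ}

/-- The smoothing scales. -/
noncomputable def dd (k : ℕ) : ℝ := 1 / (k + 1)

lemma dd_pos (k : ℕ) : 0 < dd k := by
  unfold dd
  positivity

lemma dd_tendsto : Tendsto dd atTop (𝓝 0) := tendsto_one_div_add_atTop_nhds_zero_nat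

/-- The hypothesis of `DensitySpec`. -/
def Balanced (f : Sp n → ℝ) : Prop :=
  ∀ (R : ℝ) (L : NNReal) (φ : Sp n → Sp n), 0 < R → (∀ y, R ≤ dist y 0 → φ y = 0) →
    LipschitzWith L φ → ∫ y, φ y ∂volume.withDensity (fun x => ENNReal.ofReal (f x)) = 0 →
      pair n (volume.withDensity fun x => ENNReal.ofReal (f x)) 0 R φ = 0

lemma measurable_ker (δ : ℝ) (e : Sp n) : Measurable (ker δ e) := by
  have h := (continuous_rad (n := n) δ).measurable
  unfold ker
  fun_prop

lemma integrable_near (hn : 1 ≤ n) (x : Sp n) {r : ℝ} (hr : 0 ≤ r) :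
    Integrable (fun p : Sp n × Sp n => ‖p.1 - p.2‖ / ‖p.1 - p.2‖ ^ n)
      ((volume.restrict (ball x r)).prod (volume.restrict (ball x r))) := by
  have : Fact (volume (ball x r) < ⊤) := ⟨measure_ball_lt_top⟩
  have hm : AEStronglyMeasurable (fun p : Sp n × Sp n => ‖p.1 - p.2‖ / ‖p.1 - p.2‖ ^ n)
      ((volume.restrict (ball x r)).prod (volume.restrict (ball x r))) :=
    Measurable.aestronglyMeasurable (by fun_prop)
  have hsub : ∀ y ∈ ball x r, ball x r ⊆ ball y (2 * r) := fun y hy w hw => by
    rw [mem_ball] at hw hy ⊢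
    linarith [dist_triangle w x y, dist_comm x y]
  rw [integrable_prod_iff hm]
  refine ⟨?_, ?_⟩
  · filter_upwards [ae_restrict_mem measurableSet_ball] with y hy
    exact (int_in hn y (by linarith)).1.mono_set (hsub y hy)
  · refine Integrable.of_bound hm.norm.integral_prod_right' (area n * (2 * r)) ?_
    filter_upwards [ae_restrict_mem measurableSet_ball] with y hy
    rw [Real.norm_eq_abs, abs_of_nonneg (integral_nonneg fun z => norm_nonneg _)]
    refine le_trans (le_of_eq ?_) ((setIntegral_mono_set (int_in hn y (by linarith)).1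
      (Eventually.of_forall fun z => by positivity) (Eventually.of_forall (hsub y hy))).trans_eq
      (int_in hn y (by linarith)).2)
    refine integral_congr_ae (Eventually.of_forall fun z => ?_)
    simp only [Real.norm_eq_abs]
    exact abs_of_nonneg (by positivity)

/-- The near integrand. -/
noncomputable def nearI (δ : ℝ) (e : Sp n) (f ψ : Sp n → ℝ) (p : Sp n × Sp n) : ℝ :=
  f p.1 * (ψ p.1 - ψ p.2) * ker δ e (p.1 - p.2) * f p.2

/-- The far integrand. -/
noncomputable def farI (δ : ℝ) (e : Sp n) (f ψ : Sp n → ℝ) (p : Sp n × Sp n) : ℝ :=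
  integrand δ e 0 f (fun y => ψ y * f y) p

section

variable {e : Sp n} {f ψ : Sp n → ℝ} {Cf A : ℝ} {L : NNReal} {R : ℝ}

lemma nearI_le (he : ‖e‖ = 1) (hfb : ∀ z, |f z| ≤ Cf) (hL : LipschitzWith L ψ) (δ : ℝ)
    (p : Sp n × Sp n) :
    |nearI δ e f ψ p| ≤ Cf * L * Cf * (‖p.1 - p.2‖ / ‖p.1 - p.2‖ ^ n) := by
  have hCf : 0 ≤ Cf := (abs_nonneg _).trans (hfb 0)
  rw [nearI, abs_mul, abs_mul, abs_mul]
  calc |f p.1| * |ψ p.1 - ψ p.2| * |ker δ e (p.1 - p.2)| * |f p.2|
      ≤ Cf * (L * ‖p.1 - p.2‖) * (‖p.1 - p.2‖ ^ n)⁻¹ * Cf := by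
        gcongr
        · exact hfb _
        · rw [← Real.dist_eq, ← dist_eq_norm]
          exact hL.dist_le_mul _ _
        · exact abs_ker_le he δ _
        · exact hfb _
    _ = Cf * L * Cf * (‖p.1 - p.2‖ / ‖p.1 - p.2‖ ^ n) := by
        rw [div_eq_mul_inv]
        ring

lemma farI_le (he : ‖e‖ = 1) (hfb : ∀ z, |f z| ≤ Cf) (hψ : Blk (0 : Sp n) R A ψ) (hR : 0 < R)
    (δ : ℝ) (p : Sp n × Sp n) (hp : p.2 ∈ (ball (0 : Sp n) (2 * R))ᶜ) :
    |farI δ e f ψ p| ≤
      A * Cf * (Cf * ((n + 2) * 2 ^ (n + 1) * R * (‖(0 : Sp n) - p.2‖ ^ (n + 1))⁻¹)) := by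
  have hCf : 0 ≤ Cf := (abs_nonneg _).trans (hfb 0)
  have hA : 0 ≤ A := (abs_nonneg _).trans (hψ.bound 0)
  rw [farI, integrand, abs_mul, abs_mul]
  by_cases hy : R ≤ dist p.1 0
  · rw [hψ.zero _ hy, abs_zero, zero_mul, zero_mul]
    positivity
  rw [abs_mul, mul_comm (|ker _ _ _ - _|)]
  gcongr
  · exact hψ.bound _
  · exact hfb _
  · exact hfb _
  · exact ker_far he δ hR (not_le.1 hy).le (not_lt.1 hp)

lemma trP_eq_split (hn : 1 ≤ n) (he : ‖e‖ = 1) {δ : ℝ} (hδ : 0 < δ) (hf : Measurable f)
    (hfb : ∀ z, |f z| ≤ Cf) (hψ : Blk (0 : Sp n) R A ψ) (hR : 0 < R)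
    (h0 : ∫ y, ψ y * f y = 0) :
    trP δ e f (fun y => ψ y * f y) =
      2⁻¹ * (∫ p, nearI δ e f ψ p ∂((volume.restrict (ball (0 : Sp n) (2 * R))).prod
          (volume.restrict (ball 0 (2 * R))))) +
        ∫ p, farI δ e f ψ p ∂((volume.restrict (ball (0 : Sp n) (2 * R))).prod
          (volume.restrict (ball 0 (2 * R))ᶜ)) := by
  have hw := hψ.mul hf hfb
  have hi := integrable_integrand hn he hδ hf hfb hR hw
  have hcompl : ((univ : Set (Sp n)) ×ˢ ball (0 : Sp n) (2 * R))ᶜ =
      univ ×ˢ (ball (0 : Sp n) (2 * R))ᶜ := by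
    ext p
    simp
  rw [trP_eq_prod hn he hδ hf hfb hR hw,
    ← integral_add_compl (MeasurableSet.univ.prod measurableSet_ball) hi,
    setIntegral_near hn he hδ hf hfb hR hw h0, hcompl, loc_self_eq he hδ hψ hf hfb]
  congr 1
  rw [Measure.prod_restrict]
  refine setIntegral_eq_of_subset_of_forall_sdiff_eq_zero
    (MeasurableSet.univ.prod measurableSet_ball.compl) (prod_mono (subset_univ _) subset_rfl)
    fun p hp => ?_
  have : p.1 ∉ ball (0 : Sp n) (2 * R) := fun h => hp.2 ⟨h, hp.1.2⟩
  rw [mem_ball, not_lt] at this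
  simp [integrand, hψ.zero p.1 (by linarith)]

lemma pair_eq_split (hn : 1 ≤ n) (he : ‖e‖ = 1) (hf : Measurable f) (hf0 : ∀ z, 0 ≤ f z)
    (hfb : ∀ z, |f z| ≤ Cf) (hψ : Blk (0 : Sp n) R A ψ) (hL : LipschitzWith L ψ) (hR : 0 < R) :
    pair n (volume.withDensity fun x => ENNReal.ofReal (f x)) 0 R (fun y => ψ y • e) =
      2⁻¹ * (∫ p, nearI 0 e f ψ p ∂((volume.restrict (ball (0 : Sp n) (2 * R))).prod
          (volume.restrict (ball 0 (2 * R))))) +
        ∫ p, farI 0 e f ψ p ∂((volume.restrict (ball (0 : Sp n) (2 * R))).prod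
          (volume.restrict (ball 0 (2 * R))ᶜ)) := by
  have hk := measurable_ker (n := n) 0 e
  have hψm := hψ.meas
  have hconv : ∀ (g : Sp n → ℝ) (S : Set (Sp n)),
      ∫ x in S, g x ∂(volume.withDensity fun x => ENNReal.ofReal (f x)) = ∫ x in S, f x * g x :=
    fun g S => by
      rw [setIntegral_withDensity_eq_setIntegral_toReal_smul' S (by fun_prop)
        (Eventually.of_forall fun x => ENNReal.ofReal_lt_top)]
      simp only [ENNReal.toReal_ofReal (hf0 _), smul_eq_mul]
  have : Fact (volume (ball (0 : Sp n) (2 * R)) < ⊤) := ⟨measure_ball_lt_top⟩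
  have i1 : Integrable (nearI 0 e f ψ) ((volume.restrict (ball (0 : Sp n) (2 * R))).prod
      (volume.restrict (ball 0 (2 * R)))) :=
    ((integrable_near hn 0 (by linarith)).const_mul _).mono'
      (by unfold nearI; exact Measurable.aestronglyMeasurable (by fun_prop))
      (Eventually.of_forall fun p => nearI_le he hfb hL 0 p)
  have i2 : Integrable (farI 0 e f ψ) ((volume.restrict (ball (0 : Sp n) (2 * R))).prod
      (volume.restrict (ball 0 (2 * R))ᶜ)) := by
    refine ((integrable_const (A * Cf)).mul_prod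
      (((int_out hn (0 : Sp n) (by linarith : (0 : ℝ) < 2 * R)).1.const_mul
        ((n + 2) * 2 ^ (n + 1) * R)).const_mul Cf)).mono'
      (by unfold farI integrand; exact Measurable.aestronglyMeasurable (by fun_prop)) ?_
    filter_upwards [Measure.quasiMeasurePreserving_snd.ae
      (ae_restrict_mem measurableSet_ball.compl)] with p hp
    exact farI_le he hfb hψ hR 0 p hp
  rw [integral_prod _ i1, integral_prod _ i2, pair]
  simp only [hconv]
  congr 1
  · congr 1
    refine integral_congr_ae (Eventually.of_forall fun y => ?_)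
    simp only
    rw [← integral_const_mul]
    refine integral_congr_ae (Eventually.of_forall fun z => ?_)
    simp only [nearI, ← sub_smul, real_inner_smul_left, inner_riesz]
    ring
  · refine integral_congr_ae (Eventually.of_forall fun y => ?_)
    simp only
    rw [← integral_const_mul]
    refine integral_congr_ae (Eventually.of_forall fun z => ?_)
    simp only [farI, integrand, real_inner_smul_left, inner_sub_right, inner_riesz]
    ring

/-- The hypothesis, for a scalar test. -/
lemma test_tendsto (hn : 1 ≤ n) (he : ‖e‖ = 1) (hf : Measurable f) (hf0 : ∀ z, 0 ≤ f z)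
    (hfb : ∀ z, |f z| ≤ Cf) (hB : Balanced f) (hψ : Blk (0 : Sp n) R A ψ)
    (hL : LipschitzWith L ψ) (hR : 0 < R) (h0 : ∫ y, ψ y * f y = 0) :
    Tendsto (fun k => trP (dd k) e f fun y => ψ y * f y) atTop (𝓝 0) := by
  have hz : pair n (volume.withDensity fun x => ENNReal.ofReal (f x)) 0 R (fun y => ψ y • e) =
      0 := by
    refine hB R L _ hR (fun y hy => by simp [hψ.zero y hy]) (fun y z => ?_) ?_
    · rw [edist_eq_enorm_sub, ← sub_smul, enorm_smul, show ‖e‖ₑ = 1 by
        rw [← ofReal_norm, he, ENNReal.ofReal_one], mul_one, ← edist_eq_enorm_sub]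
      exact hL y z
    · rw [integral_withDensity_eq_integral_toReal_smul (by fun_prop)
        (Eventually.of_forall fun x => ENNReal.ofReal_lt_top)]
      simp only [ENNReal.toReal_ofReal (hf0 _), smul_smul, mul_comm (f _)]
      rw [integral_smul_const, h0, zero_smul]
  rw [← hz, pair_eq_split hn he hf hf0 hfb hψ hL hR]
  simp only [fun k => trP_eq_split hn he (dd_pos k) hf hfb hψ hR h0]
  have : Fact (volume (ball (0 : Sp n) (2 * R)) < ⊤) := ⟨measure_ball_lt_top⟩
  have hψm := hψ.meas
  refine (Tendsto.const_mul _ ?_).add ?_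
  · refine tendsto_integral_of_dominated_convergence _
      (fun k => ?_) ((integrable_near hn 0 (by linarith)).const_mul _)
      (fun k => Eventually.of_forall fun p => nearI_le he hfb hL (dd k) p)
      (Eventually.of_forall fun p => ?_)
    · have hk := measurable_ker (n := n) (dd k) e
      unfold nearI
      exact Measurable.aestronglyMeasurable (by fun_prop)
    · exact ((tendsto_ker dd_tendsto e _).const_mul _).mul_const _
  · refine tendsto_integral_of_dominated_convergence _
      (fun k => ?_) ((integrable_const (A * Cf)).mul_prod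
        (((int_out hn (0 : Sp n) (by linarith : (0 : ℝ) < 2 * R)).1.const_mul
          ((n + 2) * 2 ^ (n + 1) * R)).const_mul Cf))
      (fun k => ?_) (Eventually.of_forall fun p => ?_)
    · have hk := measurable_ker (n := n) (dd k) e
      unfold farI integrand
      exact Measurable.aestronglyMeasurable (by fun_prop)
    · filter_upwards [Measure.quasiMeasurePreserving_snd.ae
        (ae_restrict_mem measurableSet_ball.compl)] with p hp
      exact farI_le he hfb hψ hR (dd k) p hp
    · exact (((tendsto_ker dd_tendsto e _).sub (tendsto_ker dd_tendsto e _)).mul_const _).const_mul _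

end

end Vale.Agent.P120.Density
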