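import Vale.Agent.P120.Density.Kernel
import Mathlib.MeasureTheory.Integral.Prod
import Mathlib.MeasureTheory.Integral.Bochner.Set

/-!
# P120: the smoothed Riesz transform of a bounded density, against compactly supported weights

Everything here is uniform in the smoothing scale `δ`. The main estimate is `commutator_le`.
-/

open MeasureTheory Metric Set Filter
open scoped RealInnerProductSpace Topology

namespace Vale.Agent.P120.Density

variable {n : ℕ}

/-- A bounded measurable weight carried by `B (x, s)`. -/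
structure Blk (x : Sp n) (s A : ℝ) (w : Sp n → ℝ) : Prop where
  meas : Measurable w
  bound : ∀ y, |w y| ≤ A
  zero : ∀ y, s ≤ dist y x → w y = 0

lemma Blk.integrable {x : Sp n} {s A : ℝ} {w : Sp n → ℝ} (h : Blk x s A w) : Integrable w := by
  have h1 : IntegrableOn w (ball x s) :=
    Measure.integrableOn_of_bounded measure_ball_lt_top.ne h.meas.aestronglyMeasurable
      (Eventually.of_forall fun y => by simpa using h.bound y)
  exact h1.integrable_of_forall_notMem_eq_zero fun y hy => h.zero y (not_lt.1 hy)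

lemma Blk.mono {x x' : Sp n} {s s' A A' : ℝ} {w : Sp n → ℝ} (h : Blk x s A w)
    (hs : dist x x' + s ≤ s') (hA : A ≤ A') : Blk x' s' A' w :=
  ⟨h.meas, fun y => (h.bound y).trans hA, fun y hy =>
    h.zero y (by linarith [dist_triangle y x x'])⟩

lemma Blk.mul {x : Sp n} {s A B : ℝ} {w g : Sp n → ℝ} (h : Blk x s A w) (hg : Measurable g)
    (hB : ∀ y, |g y| ≤ B) : Blk x s (A * B) fun y => w y * g y :=
  ⟨h.meas.mul hg, fun y => by
    rw [abs_mul]
    exact mul_le_mul (h.bound y) (hB y) (abs_nonneg _) ((abs_nonneg _).trans (h.bound y)),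
    fun y hy => by simp only [h.zero y hy, zero_mul]⟩

/-- The smoothed transform of `f`, normalised at the origin. -/
noncomputable def trT (δ : ℝ) (e : Sp n) (f : Sp n → ℝ) (y : Sp n) : ℝ :=
  ∫ z, (ker δ e (y - z) - ker δ e (0 - z)) * f z

/-- The pairing of a weight with the smoothed transform. -/
noncomputable def trP (δ : ℝ) (e : Sp n) (f w : Sp n → ℝ) : ℝ :=
  ∫ y, w y * trT δ e f y

/-- The integrand of `trP` with base point `x`. -/
noncomputable def integrand (δ : ℝ) (e x : Sp n) (f w : Sp n → ℝ) (p : Sp n × Sp n) : ℝ :=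
  w p.1 * ((ker δ e (p.1 - p.2) - ker δ e (x - p.2)) * f p.2)

/-- The bilinear form of the kernel on one ball. -/
noncomputable def loc (δ : ℝ) (e x : Sp n) (r : ℝ) (G H : Sp n → ℝ) : ℝ :=
  ∫ p, G p.1 * ker δ e (p.1 - p.2) * H p.2 ∂((volume.restrict (ball x r)).prod
    (volume.restrict (ball x r)))

variable {δ : ℝ} {e : Sp n}

lemma measurable_integrand (hδ : 0 < δ) (x : Sp n) {f w : Sp n → ℝ} (hf : Measurable f)
    (hw : Measurable w) : Measurable (integrand δ e x f w) := by
  have hk : Measurable (ker δ e) := (continuous_ker hδ e).measurable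
  unfold integrand
  fun_prop

lemma integrable_integrand (hn : 1 ≤ n) (he : ‖e‖ = 1) (hδ : 0 < δ) {f : Sp n → ℝ} {Cf : ℝ}
    (hf : Measurable f) (hfb : ∀ z, |f z| ≤ Cf) {x : Sp n} {s A : ℝ} (hs : 0 < s)
    {w : Sp n → ℝ} (hw : Blk x s A w) :
    Integrable (integrand δ e x f w) (volume.prod volume) := by
  set G : Sp n → ℝ := fun z => Cf * ((ball x (2 * s)).indicator (fun _ => 2 * (δ ^ n)⁻¹) z +
    (ball x (2 * s))ᶜ.indicator
      (fun z => (n + 2) * 2 ^ (n + 1) * s * (‖x - z‖ ^ (n + 1))⁻¹) z) with hG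
  have hCf : 0 ≤ Cf := (abs_nonneg _).trans (hfb 0)
  have hGi : Integrable G := by
    refine (Integrable.add ?_ ?_).const_mul Cf
    · rw [integrable_indicator_iff measurableSet_ball]
      exact integrableOn_const measure_ball_lt_top.ne
    · rw [integrable_indicator_iff measurableSet_ball.compl]
      exact ((int_out hn x (by linarith : (0 : ℝ) < 2 * s)).1).const_mul _
  refine ((hw.integrable.abs).mul_prod hGi).mono'
    (measurable_integrand hδ x hf hw.meas).aestronglyMeasurable (Eventually.of_forall fun p => ?_)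
  obtain ⟨y, z⟩ := p
  simp only [integrand, Real.norm_eq_abs, abs_mul]
  by_cases hy : s ≤ dist y x
  · simp [hw.zero y hy]
  refine mul_le_mul_of_nonneg_left ?_ (abs_nonneg _)
  rw [hG]
  by_cases hz : z ∈ ball x (2 * s)
  · simp only [indicator_of_mem hz, indicator_of_notMem (notMem_compl_iff.2 hz), add_zero]
    rw [mul_comm Cf]
    refine mul_le_mul ?_ (hfb z) (abs_nonneg _) (by positivity)
    refine (abs_sub _ _).trans ?_
    linarith [abs_ker_le_delta he hδ (y - z), abs_ker_le_delta he hδ (x - z)]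
  · simp only [indicator_of_notMem hz, indicator_of_mem (mem_compl hz), zero_add]
    rw [mul_comm Cf]
    exact mul_le_mul (ker_far he δ hs (not_le.1 hy).le (not_lt.1 hz)) (hfb z) (abs_nonneg _)
      (by positivity)

lemma integrand_zero_integrable (hn : 1 ≤ n) (he : ‖e‖ = 1) (hδ : 0 < δ) {f : Sp n → ℝ} {Cf : ℝ}
    (hf : Measurable f) (hfb : ∀ z, |f z| ≤ Cf) {x : Sp n} {s A : ℝ} (hs : 0 < s)
    {w : Sp n → ℝ} (hw : Blk x s A w) :
    Integrable (integrand δ e 0 f w) (volume.prod volume) :=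
  integrable_integrand hn he hδ hf hfb (by linarith [dist_nonneg (x := x) (y := (0 : Sp n))])
    (hw.mono (le_refl (dist x 0 + s)) le_rfl)

lemma trP_eq_prod (hn : 1 ≤ n) (he : ‖e‖ = 1) (hδ : 0 < δ) {f : Sp n → ℝ} {Cf : ℝ}
    (hf : Measurable f) (hfb : ∀ z, |f z| ≤ Cf) {x : Sp n} {s A : ℝ} (hs : 0 < s)
    {w : Sp n → ℝ} (hw : Blk x s A w) :
    trP δ e f w = ∫ p, integrand δ e 0 f w p ∂(volume.prod volume) := by
  rw [integral_prod _ (integrand_zero_integrable hn he hδ hf hfb hs hw)]
  simp only [trP, trT, integrand, integral_const_mul]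

lemma integrable_mul_trT (hn : 1 ≤ n) (he : ‖e‖ = 1) (hδ : 0 < δ) {f : Sp n → ℝ} {Cf : ℝ}
    (hf : Measurable f) (hfb : ∀ z, |f z| ≤ Cf) {x : Sp n} {s A : ℝ} (hs : 0 < s)
    {w : Sp n → ℝ} (hw : Blk x s A w) : Integrable fun y => w y * trT δ e f y := by
  have h := (integrand_zero_integrable hn he hδ hf hfb hs hw).integral_prod_left
  simpa only [trT, integrand, integral_const_mul] using h

lemma trP_sub_mul (hn : 1 ≤ n) (he : ‖e‖ = 1) (hδ : 0 < δ) {f : Sp n → ℝ} {Cf : ℝ}
    (hf : Measurable f) (hfb : ∀ z, |f z| ≤ Cf) {x x' : Sp n} {s s' A A' : ℝ} (hs : 0 < s)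
    (hs' : 0 < s') {u v : Sp n → ℝ} (hu : Blk x s A u) (hv : Blk x' s' A' v) (c : ℝ) :
    trP δ e f (fun y => u y - c * v y) = trP δ e f u - c * trP δ e f v := by
  unfold trP
  simp only [sub_mul, mul_assoc]
  rw [integral_sub (integrable_mul_trT hn he hδ hf hfb hs hu)
    ((integrable_mul_trT hn he hδ hf hfb hs' hv).const_mul c), integral_const_mul]

/-- The base point does not matter for a weight of mean zero. -/
lemma trP_eq_base (hn : 1 ≤ n) (he : ‖e‖ = 1) (hδ : 0 < δ) {f : Sp n → ℝ} {Cf : ℝ}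
    (hf : Measurable f) (hfb : ∀ z, |f z| ≤ Cf) {x : Sp n} {s A : ℝ} (hs : 0 < s)
    {w : Sp n → ℝ} (hw : Blk x s A w) (hw0 : ∫ y, w y = 0) :
    trP δ e f w = ∫ p, integrand δ e x f w p ∂(volume.prod volume) := by
  rw [trP_eq_prod hn he hδ hf hfb hs hw, ← sub_eq_zero, ← integral_sub
    (integrand_zero_integrable hn he hδ hf hfb hs hw) (integrable_integrand hn he hδ hf hfb hs hw)]
  calc ∫ p, integrand δ e 0 f w p - integrand δ e x f w p ∂(volume.prod volume)
      = ∫ p : Sp n × Sp n, w p.1 * ((ker δ e (x - p.2) - ker δ e (0 - p.2)) * f p.2)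
          ∂(volume.prod volume) := by
        refine integral_congr_ae (Eventually.of_forall fun p => ?_)
        simp only [integrand]
        ring
    _ = (∫ y, w y) * ∫ z, (ker δ e (x - z) - ker δ e (0 - z)) * f z :=
        integral_prod_mul w fun z => (ker δ e (x - z) - ker δ e (0 - z)) * f z
    _ = 0 := by rw [hw0, zero_mul]

lemma integrable_loc (he : ‖e‖ = 1) (hδ : 0 < δ) (x : Sp n) (r : ℝ) {G H : Sp n → ℝ} {a b : ℝ}
    (hG : Measurable G) (hH : Measurable H) (ha : ∀ y, |G y| ≤ a) (hb : ∀ y, |H y| ≤ b) :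
    Integrable (fun p : Sp n × Sp n => G p.1 * ker δ e (p.1 - p.2) * H p.2)
      ((volume.restrict (ball x r)).prod (volume.restrict (ball x r))) := by
  have : Fact (volume (ball x r) < ⊤) := ⟨measure_ball_lt_top⟩
  have hk : Measurable (ker δ e) := (continuous_ker hδ e).measurable
  refine Integrable.of_bound (by fun_prop) (a * (δ ^ n)⁻¹ * b) (Eventually.of_forall fun p => ?_)
  rw [Real.norm_eq_abs, abs_mul, abs_mul]
  have h0 : 0 ≤ a := (abs_nonneg _).trans (ha p.1)
  have hδn : 0 ≤ (δ ^ n)⁻¹ := by positivity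
  exact mul_le_mul (mul_le_mul (ha _) (abs_ker_le_delta he hδ _) (abs_nonneg _) h0) (hb _)
    (abs_nonneg _) (mul_nonneg h0 hδn)

/-- The near part of the pairing is the local form. -/
lemma setIntegral_near (hn : 1 ≤ n) (he : ‖e‖ = 1) (hδ : 0 < δ) {f : Sp n → ℝ} {Cf : ℝ}
    (hf : Measurable f) (hfb : ∀ z, |f z| ≤ Cf) {x : Sp n} {s A : ℝ} (hs : 0 < s)
    {w : Sp n → ℝ} (hw : Blk x s A w) (hw0 : ∫ y, w y = 0) :
    ∫ p in univ ×ˢ ball x (2 * s), integrand δ e x f w p ∂(volume.prod volume) =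
      loc δ e x (2 * s) w f := by
  set B := ball x (2 * s) with hB
  have hi := integrable_integrand hn he hδ hf hfb hs hw
  have hwz : ∀ y, y ∉ B → w y = 0 := fun y hy => hw.zero y (by
    rw [hB, mem_ball, not_lt] at hy
    linarith)
  have h1 : ∫ p in univ ×ˢ B, integrand δ e x f w p ∂(volume.prod volume) =
      ∫ p in B ×ˢ B, integrand δ e x f w p ∂(volume.prod volume) := by
    refine setIntegral_eq_of_subset_of_forall_sdiff_eq_zero
      (MeasurableSet.univ.prod measurableSet_ball)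
      (prod_mono (subset_univ _) subset_rfl) fun p hp => ?_
    have : p.1 ∉ B := fun h => hp.2 ⟨h, hp.1.2⟩
    simp [integrand, hwz _ this]
  rw [h1, ← Measure.prod_restrict, loc]
  have hwb := fun y => hw.bound y
  have hcut : Integrable (fun p : Sp n × Sp n => w p.1 * (ker δ e (x - p.2) * f p.2))
      ((volume.restrict B).prod (volume.restrict B)) := by
    have h2 : IntegrableOn (fun z => ker δ e (x - z) * f z) B :=
      Measure.integrableOn_of_bounded measure_ball_lt_top.ne
        (((continuous_ker hδ e).measurable.comp (measurable_const.sub measurable_id)).mul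
          hf).aestronglyMeasurable
        (M := (δ ^ n)⁻¹ * Cf) (Eventually.of_forall fun z => by
          rw [Real.norm_eq_abs, abs_mul]
          exact mul_le_mul (abs_ker_le_delta he hδ _) (hfb z) (abs_nonneg _) (by positivity))
    exact hw.integrable.restrict.mul_prod h2
  calc ∫ p, integrand δ e x f w p ∂((volume.restrict B).prod (volume.restrict B))
      = ∫ p : Sp n × Sp n, (w p.1 * ker δ e (p.1 - p.2) * f p.2 -
          w p.1 * (ker δ e (x - p.2) * f p.2))
          ∂((volume.restrict B).prod (volume.restrict B)) := by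
        refine integral_congr_ae (Eventually.of_forall fun p => ?_)
        simp only [integrand]
        ring
    _ = _ := by
        rw [integral_sub (integrable_loc he hδ x (2 * s) hw.meas hf hwb hfb) hcut,
          integral_prod_mul w fun z => ker δ e (x - z) * f z,
          setIntegral_eq_integral_of_forall_compl_eq_zero hwz, hw0, zero_mul, sub_zero]

/-- The far part costs the mass of the weight. -/
lemma trP_sub_loc_le (hn : 1 ≤ n) (he : ‖e‖ = 1) (hδ : 0 < δ) {f : Sp n → ℝ} {Cf : ℝ}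
    (hf : Measurable f) (hfb : ∀ z, |f z| ≤ Cf) {x : Sp n} {s A : ℝ} (hs : 0 < s)
    {w : Sp n → ℝ} (hw : Blk x s A w) (hw0 : ∫ y, w y = 0) :
    |trP δ e f w - loc δ e x (2 * s) w f| ≤
      (n + 2) * 2 ^ n * area n * Cf * ∫ y in ball x (2 * s), |w y| := by
  set B := ball x (2 * s) with hB
  have hi := integrable_integrand hn he hδ hf hfb hs hw
  rw [trP_eq_base hn he hδ hf hfb hs hw hw0]
  have hwz : ∀ y, y ∉ B → w y = 0 := fun y hy => hw.zero y (by
    rw [hB, mem_ball, not_lt] at hy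
    linarith)
  have hin := setIntegral_near hn he hδ hf hfb hs hw hw0
  rw [← hB] at hin
  have hcompl : ((univ : Set (Sp n)) ×ˢ B)ᶜ = univ ×ˢ Bᶜ := by
    ext p
    simp
  rw [← integral_add_compl (MeasurableSet.univ.prod measurableSet_ball) hi, hin, hcompl,
    add_sub_cancel_left, ← Measure.prod_restrict, Measure.restrict_univ]
  have hout := int_out hn x (by linarith : (0 : ℝ) < 2 * s)
  have hg : Integrable (fun p : Sp n × Sp n =>
      |w p.1| * (Cf * ((n + 2) * 2 ^ (n + 1) * s * (‖x - p.2‖ ^ (n + 1))⁻¹)))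
      (volume.prod (volume.restrict Bᶜ)) :=
    hw.integrable.abs.mul_prod ((hout.1.const_mul _).const_mul Cf)
  have hle : ∀ᵐ p ∂(volume.prod (volume.restrict Bᶜ)), ‖integrand δ e x f w p‖ ≤
      |w p.1| * (Cf * ((n + 2) * 2 ^ (n + 1) * s * (‖x - p.2‖ ^ (n + 1))⁻¹)) := by
    have hz : ∀ᵐ p : Sp n × Sp n ∂(volume.prod (volume.restrict Bᶜ)), p.2 ∈ Bᶜ :=
      Measure.quasiMeasurePreserving_snd.ae (ae_restrict_mem measurableSet_ball.compl)
    filter_upwards [hz] with p hp
    simp only [integrand, Real.norm_eq_abs, abs_mul]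
    by_cases hy : s ≤ dist p.1 x
    · simp [hw.zero _ hy]
    refine mul_le_mul_of_nonneg_left ?_ (abs_nonneg _)
    rw [mul_comm Cf]
    exact mul_le_mul (ker_far he δ hs (not_le.1 hy).le (not_lt.1 hp)) (hfb _) (abs_nonneg _)
      (by positivity)
  refine (norm_integral_le_of_norm_le hg hle).trans (le_of_eq ?_)
  rw [integral_prod_mul (fun y => |w y|)
      (fun z => Cf * ((n + 2) * 2 ^ (n + 1) * s * (‖x - z‖ ^ (n + 1))⁻¹)),
    integral_const_mul, integral_const_mul, hout.2,
    setIntegral_eq_integral_of_forall_compl_eq_zero (fun y hy => by rw [hwz y hy, abs_zero])]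
  field_simp
  ring

lemma abs_ball_ker_le (hn : 1 ≤ n) (he : ‖e‖ = 1) (hδ : 0 < δ) {x y : Sp n} {s : ℝ} (hs : 0 < s)
    (hy : dist y x ≤ s) :
    |∫ z in ball x (2 * s), ker δ e (y - z)| ≤ 2 ^ n * vol n := by
  have hi : IntegrableOn (fun z => ker δ e (y - z)) (ball x (2 * s)) :=
    Measure.integrableOn_of_bounded measure_ball_lt_top.ne
      ((continuous_ker hδ e).comp (continuous_const.sub continuous_id)).aestronglyMeasurable
      (M := (δ ^ n)⁻¹) (Eventually.of_forall fun z => by
        simpa using abs_ker_le_delta he hδ (y - z))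
  have hsub : ball y s ⊆ ball x (2 * s) := ball_subset_ball' (by linarith)
  have hzero : ∫ z in ball y s, ker δ e (y - z) = 0 := by
    rw [← integral_indicator measurableSet_ball]
    set F : Sp n → ℝ := (ball y s).indicator fun z => ker δ e (y - z) with hF
    have hodd : ∀ z, F (y + y - z) = -F z := by
      intro z
      have hm : y + y - z ∈ ball y s ↔ z ∈ ball y s := by
        rw [mem_ball, mem_ball, dist_eq_norm, dist_eq_norm, ← norm_neg (z - y),
          show y + y - z - y = -(z - y) by abel]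
      by_cases hz : z ∈ ball y s
      · simp only [hF, indicator_of_mem hz, indicator_of_mem (hm.2 hz)]
        rw [show y - (y + y - z) = -(y - z) by abel, ker_neg]
      · simp only [hF, indicator_of_notMem hz, indicator_of_notMem (fun h => hz (hm.1 h)), neg_zero]
    have h := integral_sub_left_eq_self F volume (y + y)
    simp only [hodd, integral_neg] at h
    linarith
  rw [← inter_union_sdiff (ball x (2 * s)) (ball y s), setIntegral_union disjoint_sdiff_inter.symm
    (measurableSet_ball.diff measurableSet_ball) (hi.mono_set inter_subset_left)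
    (hi.mono_set sdiff_subset), inter_eq_right.2 hsub, hzero, zero_add, ← Real.norm_eq_abs]
  refine (norm_setIntegral_le_of_norm_le_const (C := (s ^ n)⁻¹)
    ((measure_mono (μ := volume) sdiff_subset).trans_lt
      (measure_ball_lt_top (μ := volume) (x := x) (r := 2 * s))) fun z hz => ?_).trans ?_
  · refine (abs_ker_le he δ (y - z)).trans ?_
    have : s ≤ ‖y - z‖ := by
      rw [← dist_eq_norm, dist_comm]
      exact not_lt.1 hz.2
    gcongr
  · refine (mul_le_mul_of_nonneg_left (measureReal_mono sdiff_subset measure_ball_lt_top.ne)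
      (by positivity)).trans (le_of_eq ?_)
    rw [ball_real hn x (by linarith), mul_pow]
    field_simp

lemma loc_one_le (hn : 1 ≤ n) (he : ‖e‖ = 1) (hδ : 0 < δ) {x : Sp n} {s A : ℝ} (hs : 0 < s)
    {G : Sp n → ℝ} (hG : Blk x s A G) :
    |loc δ e x (2 * s) G (fun _ => 1)| ≤ 2 ^ n * vol n * ∫ y in ball x (2 * s), |G y| := by
  have hi := integrable_loc he hδ x (2 * s) hG.meas measurable_const hG.bound
    (fun _ => (abs_one (α := ℝ)).le)
  rw [loc, integral_prod _ hi]
  simp only [mul_one, integral_const_mul]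
  rw [← Real.norm_eq_abs, ← integral_const_mul]
  refine norm_integral_le_of_norm_le (hG.integrable.abs.restrict.const_mul _)
    (Eventually.of_forall fun y => ?_)
  simp only [Real.norm_eq_abs, abs_mul]
  by_cases hy : s ≤ dist y x
  · simp [hG.zero y hy]
  rw [mul_comm (2 ^ n * vol n)]
  exact mul_le_mul_of_nonneg_left (abs_ball_ker_le hn he hδ hs (not_le.1 hy).le) (abs_nonneg _)

lemma loc_symm_le (hn : 1 ≤ n) (he : ‖e‖ = 1) (hδ : 0 < δ) {x : Sp n} {s A : ℝ} (hs : 0 < s)
    {ρ : Sp n → ℝ} (hρ : Blk x s A ρ) (hlip : ∀ y z, |ρ y - ρ z| ≤ A / s * ‖y - z‖)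
    {G H : Sp n → ℝ} {a b : ℝ} (hG : Measurable G) (hH : Measurable H) (ha : ∀ y, |G y| ≤ a)
    (hb : ∀ y, |H y| ≤ b) :
    |loc δ e x (2 * s) (fun y => ρ y * G y) H + loc δ e x (2 * s) (fun y => ρ y * H y) G| ≤
      4 * area n * A * a * ∫ z in ball x (2 * s), |H z| := by
  set B := ball x (2 * s) with hB
  have h1 := integrable_loc he hδ x (2 * s) (hρ.mul hG ha).meas hH (hρ.mul hG ha).bound hb
  have h2 := integrable_loc he hδ x (2 * s) (hρ.mul hH hb).meas hG (hρ.mul hH hb).bound ha
  have hA : 0 ≤ A := (abs_nonneg _).trans (hρ.bound x)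
  have h0 : 0 ≤ a := (abs_nonneg _).trans (ha x)
  have hsw : loc δ e x (2 * s) (fun y => ρ y * H y) G =
      ∫ p : Sp n × Sp n, -(G p.1 * ρ p.2 * ker δ e (p.1 - p.2) * H p.2)
        ∂((volume.restrict B).prod (volume.restrict B)) := by
    rw [loc, ← hB, ← integral_prod_swap (fun p : Sp n × Sp n =>
      ρ p.1 * H p.1 * ker δ e (p.1 - p.2) * G p.2)]
    refine integral_congr_ae (Eventually.of_forall fun p => ?_)
    simp only [Prod.swap, ker_swap δ e p.2 p.1]
    ring
  have h3 : Integrable (fun p : Sp n × Sp n => -(G p.1 * ρ p.2 * ker δ e (p.1 - p.2) * H p.2))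
      ((volume.restrict B).prod (volume.restrict B)) := by
    refine (Integrable.swap h2).congr (Eventually.of_forall fun p => ?_)
    simp only [Function.comp_apply, Prod.swap, ker_swap δ e p.2 p.1]
    ring
  rw [← hB] at h1
  rw [hsw, loc, ← hB, ← integral_add h1 h3]
  set F : Sp n × Sp n → ℝ := fun p => G p.1 * (ρ p.1 - ρ p.2) * ker δ e (p.1 - p.2) * H p.2
  have hF : Integrable F ((volume.restrict B).prod (volume.restrict B)) :=
    (h1.add h3).congr (Eventually.of_forall fun p => by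
      simp only [F, Pi.add_apply]
      ring)
  rw [show (∫ p, (ρ p.1 * G p.1 * ker δ e (p.1 - p.2) * H p.2 +
      -(G p.1 * ρ p.2 * ker δ e (p.1 - p.2) * H p.2))
      ∂((volume.restrict B).prod (volume.restrict B))) = ∫ p, F p
      ∂((volume.restrict B).prod (volume.restrict B)) from
    integral_congr_ae (Eventually.of_forall fun p => by simp only [F]; ring),
    integral_prod_symm _ hF, ← Real.norm_eq_abs, ← integral_const_mul]
  have hHi : IntegrableOn H B := Measure.integrableOn_of_bounded measure_ball_lt_top.ne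
    hH.aestronglyMeasurable (M := b) (Eventually.of_forall fun z => by simpa using hb z)
  refine norm_integral_le_of_norm_le (hHi.abs.const_mul _) ?_
  filter_upwards [ae_restrict_mem measurableSet_ball] with z hz
  have hsub : B ⊆ ball z (4 * s) := fun w hw => by
    rw [mem_ball] at hw hz ⊢
    linarith [dist_triangle w x z, dist_comm x z]
  have hin := int_in hn z (by linarith : (0 : ℝ) ≤ 4 * s)
  have hk : IntegrableOn
      (fun y => a * (A / s) * |H z| * (‖z - y‖ / ‖z - y‖ ^ n)) B :=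
    (hin.1.mono_set hsub).const_mul _
  refine (norm_integral_le_of_norm_le hk (Eventually.of_forall fun y => ?_)).trans ?_
  · simp only [F, Real.norm_eq_abs, abs_mul, norm_sub_rev z y]
    calc |G y| * |ρ y - ρ z| * |ker δ e (y - z)| * |H z|
        ≤ a * (A / s * ‖y - z‖) * (‖y - z‖ ^ n)⁻¹ * |H z| := by
          gcongr
          · exact ha y
          · exact hlip y z
          · exact abs_ker_le he δ _
      _ = a * (A / s) * |H z| * (‖y - z‖ / ‖y - z‖ ^ n) := by
          rw [div_eq_mul_inv ‖y - z‖]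
          ring
  · rw [integral_const_mul]
    calc a * (A / s) * |H z| * ∫ y in B, ‖z - y‖ / ‖z - y‖ ^ n
        ≤ a * (A / s) * |H z| * (area n * (4 * s)) := by
          gcongr
          rw [← hin.2]
          exact setIntegral_mono_set hin.1 (Eventually.of_forall fun y => by positivity)
            (Eventually.of_forall hsub)
      _ = _ := by
          field_simp

lemma int_abs_mul_le {x : Sp n} {s r A M : ℝ} {ρ g : Sp n → ℝ} (hρ : Blk x s A ρ)
    (hg : Measurable g) (hM : ∀ y, |g y| ≤ M) :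
    ∫ y in ball x r, |ρ y * g y| ≤ A * ∫ y in ball x r, |g y| := by
  rw [← integral_const_mul]
  refine setIntegral_mono_on (hρ.mul hg hM).integrable.abs.integrableOn
    ((Measure.integrableOn_of_bounded measure_ball_lt_top.ne
      (continuous_abs.measurable.comp hg).aestronglyMeasurable (M := M)
      (Eventually.of_forall fun y => by simpa using hM y)).const_mul A)
    measurableSet_ball fun y _ => ?_
  rw [abs_mul]
  exact mul_le_mul_of_nonneg_right (hρ.bound y) (abs_nonneg _)

lemma int_abs_le (hn : 1 ≤ n) (x : Sp n) {s M : ℝ} (hs : 0 < s) {g : Sp n → ℝ}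
    (hg : Measurable g) (hM : ∀ y, |g y| ≤ M) :
    ∫ y in ball x (2 * s), |g y| ≤ M * (2 ^ n * s ^ n * vol n) := by
  refine (setIntegral_mono_on (Measure.integrableOn_of_bounded measure_ball_lt_top.ne
    (continuous_abs.measurable.comp hg).aestronglyMeasurable (M := M)
      (Eventually.of_forall fun y => by simpa using hM y))
    (integrableOn_const measure_ball_lt_top.ne) measurableSet_ball
    (fun y _ => hM y)).trans (le_of_eq ?_)
  rw [setIntegral_const, smul_eq_mul, ball_real hn x (by linarith), mul_pow]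
  ring

lemma loc_split (he : ‖e‖ = 1) (hδ : 0 < δ) {x : Sp n} {s r A Cf f₀ b : ℝ} {ρ f : Sp n → ℝ}
    (hρ : Blk x s A ρ) (hf : Measurable f) (hfb : ∀ z, |f z| ≤ Cf) :
    loc δ e x r (fun y => ρ y * (f y - b)) f =
      loc δ e x r (fun y => ρ y * (f y - f₀)) (fun y => f y - f₀) +
        f₀ * loc δ e x r (fun y => ρ y * (f y - f₀)) (fun _ => 1) +
        (f₀ - b) * loc δ e x r (fun y => ρ y * 1) f := by
  have hF : Measurable fun y => f y - f₀ := hf.sub measurable_const
  have hFb : ∀ y, |f y - f₀| ≤ Cf + |f₀| := fun y => (abs_sub _ _).trans (by linarith [hfb y])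
  have hone : ∀ y : Sp n, |(1 : ℝ)| ≤ 1 := fun _ => (abs_one (α := ℝ)).le
  have h1 := hρ.mul hF hFb
  have h3 := hρ.mul measurable_const hone
  have i1 := integrable_loc he hδ x r h1.meas hF h1.bound hFb
  have i2 := integrable_loc he hδ x r h1.meas measurable_const h1.bound hone
  have i3 := integrable_loc he hδ x r h3.meas hf h3.bound hfb
  simp only [loc]
  rw [← integral_const_mul, ← integral_const_mul, ← integral_add i1 (i2.const_mul f₀),
    ← integral_add _ (i3.const_mul (f₀ - b))]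
  · refine integral_congr_ae (Eventually.of_forall fun p => ?_)
    ring
  · exact i1.add (i2.const_mul f₀)

lemma loc_self_le (hn : 1 ≤ n) (he : ‖e‖ = 1) (hδ : 0 < δ) {x : Sp n} {s A : ℝ} (hs : 0 < s)
    {ρ : Sp n → ℝ} (hρ : Blk x s A ρ) (hlip : ∀ y z, |ρ y - ρ z| ≤ A / s * ‖y - z‖)
    {G : Sp n → ℝ} {a : ℝ} (hG : Measurable G) (ha : ∀ y, |G y| ≤ a) :
    |loc δ e x (2 * s) (fun y => ρ y * G y) G| ≤
      4 * area n * A * a * ∫ z in ball x (2 * s), |G z| := by
  have h := loc_symm_le hn he hδ hs hρ hlip hG hG ha ha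
  rw [← two_mul, abs_mul, abs_two] at h
  linarith [abs_nonneg (loc δ e x (2 * s) (fun y => ρ y * G y) G)]

lemma loc_left_le (hn : 1 ≤ n) (he : ‖e‖ = 1) (hδ : 0 < δ) {x : Sp n} {s A : ℝ} (hs : 0 < s)
    {ρ : Sp n → ℝ} (hρ : Blk x s A ρ) (hlip : ∀ y z, |ρ y - ρ z| ≤ A / s * ‖y - z‖)
    {f : Sp n → ℝ} {Cf : ℝ} (hf : Measurable f) (hfb : ∀ z, |f z| ≤ Cf) :
    |loc δ e x (2 * s) (fun y => ρ y * 1) f| ≤
      (2 ^ n * vol n + 4 * area n) * (A * (Cf * (2 ^ n * s ^ n * vol n))) := by
  have hA : 0 ≤ A := (abs_nonneg _).trans (hρ.bound x)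
  have := area_nonneg n
  have := vol_nonneg n
  have h := loc_symm_le hn he hδ hs hρ hlip measurable_const hf
    (fun _ => (abs_one (α := ℝ)).le) hfb
  have h' := loc_one_le hn he hδ hs (hρ.mul hf hfb)
  have t := abs_sub_abs_le_abs_sub (loc δ e x (2 * s) (fun y => ρ y * 1) f)
    (-loc δ e x (2 * s) (fun y => ρ y * f y) (fun _ => 1))
  rw [sub_neg_eq_add, abs_neg] at t
  have h4 : 4 * area n * A * 1 * ∫ z in ball x (2 * s), |f z| ≤
      4 * area n * A * 1 * (Cf * (2 ^ n * s ^ n * vol n)) :=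
    mul_le_mul_of_nonneg_left (int_abs_le hn x hs hf hfb) (by positivity)
  have h5 : 2 ^ n * vol n * ∫ y in ball x (2 * s), |ρ y * f y| ≤
      2 ^ n * vol n * (A * (Cf * (2 ^ n * s ^ n * vol n))) :=
    mul_le_mul_of_nonneg_left ((int_abs_mul_le hρ hf hfb).trans
      (mul_le_mul_of_nonneg_left (int_abs_le hn x hs hf hfb) hA)) (by positivity)
  linarith

lemma loc_comm_le (hn : 1 ≤ n) (he : ‖e‖ = 1) (hδ : 0 < δ) {x : Sp n} {s A Cf f₀ b : ℝ}
    (hs : 0 < s) {ρ f : Sp n → ℝ} (hρ : Blk x s A ρ)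
    (hlip : ∀ y z, |ρ y - ρ z| ≤ A / s * ‖y - z‖) (hf : Measurable f) (hfb : ∀ z, |f z| ≤ Cf) :
    |loc δ e x (2 * s) (fun y => ρ y * (f y - b)) f| ≤
      4 * area n * A * (Cf + |f₀|) * (∫ y in ball x (2 * s), |f y - f₀|) +
        |f₀| * (2 ^ n * vol n * (A * ∫ y in ball x (2 * s), |f y - f₀|)) +
        |b - f₀| * ((2 ^ n * vol n + 4 * area n) * (A * (Cf * (2 ^ n * s ^ n * vol n)))) := by
  have := vol_nonneg n
  have hF : Measurable fun y => f y - f₀ := hf.sub measurable_const
  have hFb : ∀ y, |f y - f₀| ≤ Cf + |f₀| := fun y => (abs_sub _ _).trans (by linarith [hfb y])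
  rw [loc_split he hδ (f₀ := f₀) hρ hf hfb]
  refine (abs_add_three _ _ _).trans ?_
  rw [abs_mul, abs_mul, abs_sub_comm f₀ b]
  gcongr
  · exact loc_self_le hn he hδ hs hρ hlip hF hFb
  · exact (loc_one_le hn he hδ hs (hρ.mul hF hFb)).trans
      (mul_le_mul_of_nonneg_left (int_abs_mul_le hρ hF hFb) (by positivity))
  · exact loc_left_le hn he hδ hs hρ hlip hf hfb

lemma weight_le (hn : 1 ≤ n) {x : Sp n} {s A Cf f₀ b : ℝ} (hs : 0 < s) {ρ f : Sp n → ℝ}
    (hρ : Blk x s A ρ) (hf : Measurable f) (hfb : ∀ z, |f z| ≤ Cf) :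
    ∫ y in ball x (2 * s), |ρ y * (f y - b)| ≤
      A * (∫ y in ball x (2 * s), |f y - f₀|) + |b - f₀| * (A * (2 ^ n * s ^ n * vol n)) := by
  have hF : Measurable fun y => f y - f₀ := hf.sub measurable_const
  have hFb : ∀ y, |f y - f₀| ≤ Cf + |f₀| := fun y => (abs_sub _ _).trans (by linarith [hfb y])
  have hw := hρ.mul (g := fun y => f y - b) (B := Cf + |b|) (hf.sub measurable_const)
    fun y => (abs_sub _ _).trans (by linarith [hfb y])
  refine le_trans ?_ (add_le_add (int_abs_mul_le hρ hF hFb)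
    (mul_le_mul_of_nonneg_left (int_abs_le hn x hs hρ.meas hρ.bound) (abs_nonneg _)))
  rw [← integral_const_mul, ← integral_add (hρ.mul hF hFb).integrable.abs.integrableOn
    (hρ.integrable.abs.integrableOn.const_mul _)]
  refine setIntegral_mono_on hw.integrable.abs.integrableOn
    ((hρ.mul hF hFb).integrable.abs.integrableOn.add
      (hρ.integrable.abs.integrableOn.const_mul _)) measurableSet_ball fun y _ => ?_
  have : ρ y * (f y - b) = ρ y * (f y - f₀) + -((b - f₀) * ρ y) := by ring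
  rw [this]
  refine (abs_add_le _ _).trans (le_of_eq ?_)
  rw [abs_neg, abs_mul (b - f₀)]

/-- The antisymmetry of the kernel in the local form. -/
lemma loc_self_eq (he : ‖e‖ = 1) (hδ : 0 < δ) {x : Sp n} {s r A : ℝ} {ρ : Sp n → ℝ}
    (hρ : Blk x s A ρ) {G : Sp n → ℝ} {a : ℝ} (hG : Measurable G) (ha : ∀ y, |G y| ≤ a) :
    loc δ e x r (fun y => ρ y * G y) G =
      2⁻¹ * ∫ p, G p.1 * (ρ p.1 - ρ p.2) * ker δ e (p.1 - p.2) * G p.2
        ∂((volume.restrict (ball x r)).prod (volume.restrict (ball x r))) := by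
  have h1 := integrable_loc he hδ x r (hρ.mul hG ha).meas hG (hρ.mul hG ha).bound ha
  have h2 := Integrable.swap h1
  have e2 : loc δ e x r (fun y => ρ y * G y) G =
      ∫ p : Sp n × Sp n, ρ p.2 * G p.2 * ker δ e (p.2 - p.1) * G p.1
        ∂((volume.restrict (ball x r)).prod (volume.restrict (ball x r))) := by
    rw [loc, ← integral_prod_swap]
    rfl
  have h3 := integral_add h1 h2
  simp only [Function.comp_apply, Prod.swap] at h3
  simp only [loc] at e2 ⊢
  rw [← e2] at h3
  rw [show (∫ p : Sp n × Sp n, G p.1 * (ρ p.1 - ρ p.2) * ker δ e (p.1 - p.2) * G p.2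
      ∂((volume.restrict (ball x r)).prod (volume.restrict (ball x r)))) =
      ∫ p : Sp n × Sp n, (ρ p.1 * G p.1 * ker δ e (p.1 - p.2) * G p.2 +
        ρ p.2 * G p.2 * ker δ e (p.2 - p.1) * G p.1)
      ∂((volume.restrict (ball x r)).prod (volume.restrict (ball x r))) from
    integral_congr_ae (Eventually.of_forall fun p => by
      simp only [ker_swap δ e p.2 p.1]
      ring), h3]
  ring

/-- The commutator of a cut-off with the density, uniformly in `δ`. -/
lemma commutator_le (hn : 1 ≤ n) : ∃ K : ℝ, 0 ≤ K ∧ ∀ (δ : ℝ) (e : Sp n), 0 < δ → ‖e‖ = 1 →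
    ∀ (f : Sp n → ℝ) (Cf : ℝ), Measurable f → (∀ z, |f z| ≤ Cf) →
    ∀ (x : Sp n) (s A f₀ b : ℝ), 0 < s → ∀ ρ : Sp n → ℝ, Blk x s A ρ →
      (∀ y z, |ρ y - ρ z| ≤ A / s * ‖y - z‖) → ∫ y, ρ y * (f y - b) = 0 →
      |trP δ e f (fun y => ρ y * (f y - b))| ≤
        K * A * (Cf + |f₀|) * ((∫ y in ball x (2 * s), |f y - f₀|) + |b - f₀| * s ^ n) := by
  set K1 := (n + 2 : ℝ) * 2 ^ n * area n with h1
  set K2 := 2 ^ n * vol n with h2
  set K3 := 4 * area n with h3
  have hK1 : 0 ≤ K1 := by have := area_nonneg n; positivity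
  have hK2 : 0 ≤ K2 := by have := vol_nonneg n; positivity
  have hK3 : 0 ≤ K3 := by have := area_nonneg n; positivity
  refine ⟨(K1 + K2 + K3) * (1 + K2), by positivity, ?_⟩
  intro δ e hδ he f Cf hf hfb x s A f₀ b hs ρ hρ hlip hw0
  have hA : 0 ≤ A := (abs_nonneg _).trans (hρ.bound x)
  have hCf : 0 ≤ Cf := (abs_nonneg _).trans (hfb x)
  have hI0 : 0 ≤ ∫ y in ball x (2 * s), |f y - f₀| := integral_nonneg fun y => abs_nonneg _
  have hfar := trP_sub_loc_le hn he hδ hf hfb hs (hρ.mul (g := fun y => f y - b) (B := Cf + |b|)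
    (hf.sub measurable_const) fun y => (abs_sub _ _).trans (by linarith [hfb y])) hw0
  have htot := abs_sub_abs_le_abs_sub (trP δ e f fun y => ρ y * (f y - b))
    (loc δ e x (2 * s) (fun y => ρ y * (f y - b)) f)
  have hloc := loc_comm_le hn he hδ (f₀ := f₀) (b := b) hs hρ hlip hf hfb
  have hfar' := mul_le_mul_of_nonneg_left (weight_le hn (f₀ := f₀) (b := b) hs hρ hf hfb)
    (mul_nonneg hK1 hCf)
  rw [← h1] at hfar
  rw [← h3, ← h2] at hloc
  generalize (∫ y in ball x (2 * s), |f y - f₀|) = I at hI0 hloc hfar' ⊢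
  have e1 : A * (2 ^ n * s ^ n * vol n) = K2 * (A * s ^ n) := by rw [h2]; ring
  have e2 : A * (Cf * (2 ^ n * s ^ n * vol n)) = Cf * K2 * (A * s ^ n) := by rw [h2]; ring
  rw [e1] at hfar'
  rw [e2] at hloc
  have hJ : 0 ≤ A * (|b - f₀| * s ^ n) := by positivity
  have hAI : 0 ≤ A * I := mul_nonneg hA hI0
  have hfin : K1 * Cf * (A * I + |b - f₀| * (K2 * (A * s ^ n))) +
      (K3 * A * (Cf + |f₀|) * I + |f₀| * (K2 * (A * I)) +
        |b - f₀| * ((K2 + K3) * (Cf * K2 * (A * s ^ n)))) ≤
      (K1 + K2 + K3) * (1 + K2) * A * (Cf + |f₀|) * (I + |b - f₀| * s ^ n) := by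
    have hf0 := abs_nonneg f₀
    nlinarith [mul_nonneg (mul_nonneg hK1 hf0) hAI, mul_nonneg (mul_nonneg hK2 hCf) hAI,
      mul_nonneg (mul_nonneg (mul_nonneg (add_nonneg (add_nonneg hK1 hK2) hK3) hK2)
        (add_nonneg hCf hf0)) hAI,
      mul_nonneg (mul_nonneg (mul_nonneg (add_nonneg (add_nonneg hK1 hK2) hK3) hK2) hf0) hJ,
      mul_nonneg (mul_nonneg (add_nonneg (add_nonneg hK1 hK2) hK3)
        (add_nonneg hCf hf0)) hJ]
  linarith

end Vale.Agent.P120.Density
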